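import Mathlib

/-! Functions that are short sums of periodic functions, and their discrepancy on intervals. -/

set_option autoImplicit false

namespace Crest.Agent.PrimeGap

open Finset

/-- `Low Q f B`: `f` is a sum of bounded functions with periods dividing `Q`, the sum of
(bound times period) being at most `B`. -/
inductive Low (Q : ℕ) : (ℕ → ℝ) → ℝ → Prop
  | basic (f : ℕ → ℝ) (q : ℕ) (c : ℝ) (hq : q ∣ Q) (hper : Function.Periodic f q)
      (hc : ∀ n, |f n| ≤ c) : Low Q f (c * q)
  | add {f g : ℕ → ℝ} {B B' : ℝ} (hf : Low Q f B) (hg : Low Q g B') :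
      Low Q (fun n => f n + g n) (B + B')
  | mono {f : ℕ → ℝ} {B B' : ℝ} (hf : Low Q f B) (h : B ≤ B') : Low Q f B'

namespace Low
variable {Q : ℕ}

lemma nonneg {f : ℕ → ℝ} {B : ℝ} (h : Low Q f B) : 0 ≤ B := by
  induction h with
  | basic f q c hq hper hc => exact mul_nonneg ((abs_nonneg _).trans (hc 0)) (Nat.cast_nonneg _)
  | add hf hg ih1 ih2 => positivity
  | mono hf h ih => exact ih.trans h

lemma congr {f g : ℕ → ℝ} {B : ℝ} (h : Low Q f B) (e : ∀ n, f n = g n) : Low Q g B := by
  have : f = g := funext e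
  exact this ▸ h

lemma const (c : ℝ) : Low Q (fun _ => c) |c| := by
  have := basic (Q := Q) (fun _ => c) 1 |c| (one_dvd _) (fun _ => rfl) (fun _ => le_rfl)
  simpa using this

lemma basic_mul (hQ : 0 < Q) (f : ℕ → ℝ) (q : ℕ) (c : ℝ) (hq : q ∣ Q)
    (hper : Function.Periodic f q) (hc : ∀ n, |f n| ≤ c) {g : ℕ → ℝ} {B : ℝ} (hg : Low Q g B) :
    Low Q (fun n => f n * g n) (c * q * B) := by
  have hc0 : 0 ≤ c := (abs_nonneg _).trans (hc 0)
  induction hg with
  | basic g q' c' hq' hper' hc' =>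
    have hc0' : 0 ≤ c' := (abs_nonneg _).trans (hc' 0)
    have h1 : Function.Periodic (fun n => f n * g n) (Nat.lcm q q') := by
      obtain ⟨a, ha⟩ := Nat.dvd_lcm_left q q'
      obtain ⟨b, hb⟩ := Nat.dvd_lcm_right q q'
      intro n
      have e1 : f (n + Nat.lcm q q') = f n := by
        rw [ha, mul_comm]; exact (hper.nat_mul a) n
      have e2 : g (n + Nat.lcm q q') = g n := by
        rw [hb, mul_comm]; exact (hper'.nat_mul b) n
      simp only [e1, e2]
    refine (basic _ (Nat.lcm q q') (c * c') (Nat.lcm_dvd hq hq') h1 ?_).mono ?_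
    · intro n; rw [abs_mul]; exact mul_le_mul (hc n) (hc' n) (abs_nonneg _) hc0
    · have hq0 : 0 < q := Nat.pos_of_dvd_of_pos hq hQ
      have hq0' : 0 < q' := Nat.pos_of_dvd_of_pos hq' hQ
      have : (Nat.lcm q q' : ℝ) ≤ q * q' := by
        exact_mod_cast Nat.lcm_le_mul hq0 hq0'
      calc c * c' * (Nat.lcm q q' : ℝ) ≤ c * c' * (q * q') := by gcongr
        _ = _ := by ring
  | add hf hg ih1 ih2 =>
    refine ((ih1.add ih2).congr fun n => by ring).mono (le_of_eq (by ring))
  | mono hf h ih =>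
    refine ih.mono ?_
    have : (0 : ℝ) ≤ q := Nat.cast_nonneg _
    gcongr

lemma mul (hQ : 0 < Q) {f g : ℕ → ℝ} {B B' : ℝ} (hf : Low Q f B) (hg : Low Q g B') :
    Low Q (fun n => f n * g n) (B * B') := by
  induction hf with
  | basic f q c hq hper hc => exact basic_mul hQ f q c hq hper hc hg
  | add hf hf' ih1 ih2 =>
    refine ((ih1.add ih2).congr fun n => by ring).mono (le_of_eq (by ring))
  | mono hf h ih =>
    refine ih.mono ?_
    have := hg.nonneg
    gcongr

lemma const_mul (hQ : 0 < Q) (c : ℝ) {g : ℕ → ℝ} {B : ℝ} (hg : Low Q g B) :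
    Low Q (fun n => c * g n) (|c| * B) := (const c).mul hQ hg

lemma sq (hQ : 0 < Q) {g : ℕ → ℝ} {B : ℝ} (hg : Low Q g B) :
    Low Q (fun n => g n ^ 2) (B ^ 2) := by
  refine ((hg.mul hQ hg).congr fun n => by ring).mono (le_of_eq (by ring))

lemma sub (hQ : 0 < Q) {f g : ℕ → ℝ} {B B' : ℝ} (hf : Low Q f B) (hg : Low Q g B') :
    Low Q (fun n => f n - g n) (B + B') := by
  refine ((hf.add (hg.const_mul hQ (-1))).congr fun n => by ring).mono (le_of_eq (by simp))

lemma sum {ι : Type*} (s : Finset ι) {f : ι → ℕ → ℝ} {B : ι → ℝ}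
    (h : ∀ i ∈ s, Low Q (f i) (B i)) : Low Q (fun n => ∑ i ∈ s, f i n) (∑ i ∈ s, B i) := by
  classical
  induction s using Finset.induction_on with
  | empty => simpa using const (Q := Q) 0
  | insert a s ha ih =>
    simp only [sum_insert ha]
    exact (h a (mem_insert_self _ _)).add (ih fun i hi => h i (mem_insert_of_mem hi))

lemma prod (hQ : 0 < Q) {ι : Type*} (s : Finset ι) {f : ι → ℕ → ℝ} {B : ι → ℝ}
    (h : ∀ i ∈ s, Low Q (f i) (B i)) : Low Q (fun n => ∏ i ∈ s, f i n) (∏ i ∈ s, B i) := by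
  classical
  induction s using Finset.induction_on with
  | empty => simpa using const (Q := Q) 1
  | insert a s ha ih =>
    simp only [prod_insert ha]
    exact (h a (mem_insert_self _ _)).mul hQ (ih fun i hi => h i (mem_insert_of_mem hi))

end Low

lemma sum_range_mul_periodic {f : ℕ → ℝ} {q : ℕ} (hper : Function.Periodic f q) (k : ℕ) :
    ∑ n ∈ range (k * q), f n = k * ∑ n ∈ range q, f n := by
  induction k with
  | zero => simp
  | succ k ih =>
    rw [Nat.succ_mul, sum_range_add, ih]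
    have : ∀ n, f (k * q + n) = f n := fun n => by
      rw [add_comm]; exact (hper.nat_mul k) n
    simp only [this]
    push_cast; ring

lemma Low.discrepancy {Q : ℕ} (hQ : 0 < Q) {f : ℕ → ℝ} {B : ℝ} (h : Low Q f B) (X : ℕ) :
    |∑ n ∈ range X, f n - (X : ℝ) / Q * ∑ n ∈ range Q, f n| ≤ 2 * B := by
  induction h with
  | basic f q c hq hper hc =>
    have hq0 : 0 < q := Nat.pos_of_dvd_of_pos hq hQ
    have hc0 : 0 ≤ c := (abs_nonneg _).trans (hc 0)
    obtain ⟨k, hk⟩ := hq
    have hk0 : 0 < k := by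
      rcases Nat.eq_zero_or_pos k with h0 | h0
      · rw [h0, mul_zero] at hk; omega
      · exact h0
    have hb : ∀ (a m : ℕ), m ≤ q → |∑ n ∈ range m, f (a + n)| ≤ c * q := by
      intro a m hm
      calc |∑ n ∈ range m, f (a + n)| ≤ ∑ n ∈ range m, |f (a + n)| := abs_sum_le_sum_abs _ _
        _ ≤ ∑ n ∈ range m, c := sum_le_sum fun n _ => hc _
        _ = m * c := by simp
        _ ≤ q * c := by gcongr
        _ = c * q := mul_comm _ _
    have e1 : ∑ n ∈ range Q, f n = k * ∑ n ∈ range q, f n := by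
      rw [hk, mul_comm]; exact sum_range_mul_periodic hper k
    have e2 : ∑ n ∈ range X, f n =
        (X / q : ℕ) * ∑ n ∈ range q, f n + ∑ n ∈ range (X % q), f (X / q * q + n) := by
      conv_lhs => rw [← Nat.div_add_mod' X q]
      rw [sum_range_add, sum_range_mul_periodic hper]
    have e3 : (X : ℝ) = (X / q : ℕ) * q + (X % q : ℕ) := by
      exact_mod_cast (Nat.div_add_mod' X q).symm
    have hq0' : (0 : ℝ) < q := by exact_mod_cast hq0
    have hk0' : (0 : ℝ) < k := by exact_mod_cast hk0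
    have hr : ((X % q : ℕ) : ℝ) ≤ q := by exact_mod_cast (Nat.mod_lt X hq0).le
    have hs := hb 0 q le_rfl
    simp only [zero_add] at hs
    have ht := hb (X / q * q) (X % q) (Nat.mod_lt X hq0).le
    rw [e2, e1]
    set s := ∑ n ∈ range q, f n
    set t := ∑ n ∈ range (X % q), f (X / q * q + n)
    have e4 : ((X / q : ℕ) : ℝ) * s + t - (X : ℝ) / Q * (k * s) = t - ((X % q : ℕ) : ℝ) / q * s := by
      have : (Q : ℝ) = q * k := by exact_mod_cast hk
      rw [this]
      conv_lhs => rw [e3]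
      field_simp
      ring
    rw [e4]
    have h5 : |((X % q : ℕ) : ℝ) / q * s| ≤ c * q := by
      rw [abs_mul, abs_of_nonneg (by positivity)]
      calc ((X % q : ℕ) : ℝ) / q * |s| ≤ 1 * (c * q) := by
            gcongr; rwa [div_le_one hq0']
        _ = c * q := one_mul _
    calc |t - ((X % q : ℕ) : ℝ) / q * s| ≤ |t| + |((X % q : ℕ) : ℝ) / q * s| := abs_sub _ _
      _ ≤ c * q + c * q := add_le_add ht h5
      _ = 2 * (c * q) := by ring
  | @add f g B B' hf hg ih1 ih2 =>
    simp only [sum_add_distrib]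
    calc _ = |(∑ n ∈ range X, f n - (X : ℝ) / Q * ∑ n ∈ range Q, f n) +
            (∑ n ∈ range X, g n - (X : ℝ) / Q * ∑ n ∈ range Q, g n)| := by congr 1; ring
      _ ≤ _ := abs_add_le _ _
      _ ≤ 2 * B + 2 * B' := add_le_add ih1 ih2
      _ = _ := by ring
  | mono hf h ih => linarith

end Crest.Agent.PrimeGap
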