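import Mathlib

/-! Finite weighted averages and product weights. -/

set_option autoImplicit false

namespace Crest.Agent.PrimeGap

open Finset

/-- weighted sum -/
noncomputable def Ex {β : Type*} [Fintype β] (μ : β → ℝ) (F : β → ℝ) : ℝ := ∑ x, μ x * F x

/-- a probability weight -/
structure IsProb {β : Type*} [Fintype β] (μ : β → ℝ) : Prop where
  nonneg : ∀ x, 0 ≤ μ x
  sum_one : ∑ x, μ x = 1

section basic
variable {β : Type*} [Fintype β] {μ : β → ℝ}

lemma Ex_add (F G : β → ℝ) : Ex μ (fun x => F x + G x) = Ex μ F + Ex μ G := by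
  simp [Ex, mul_add, sum_add_distrib]

lemma Ex_sub (F G : β → ℝ) : Ex μ (fun x => F x - G x) = Ex μ F - Ex μ G := by
  simp [Ex, mul_sub, sum_sub_distrib]

lemma Ex_const_mul (c : ℝ) (F : β → ℝ) : Ex μ (fun x => c * F x) = c * Ex μ F := by
  simp only [Ex, mul_sum]; exact sum_congr rfl fun x _ => by ring

lemma Ex_mul_const (c : ℝ) (F : β → ℝ) : Ex μ (fun x => F x * c) = Ex μ F * c := by
  simp only [Ex, sum_mul]; exact sum_congr rfl fun x _ => by ring

lemma Ex_div_const (c : ℝ) (F : β → ℝ) : Ex μ (fun x => F x / c) = Ex μ F / c := by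
  simp only [div_eq_mul_inv]; exact Ex_mul_const _ _

lemma Ex_sum {ι : Type*} (s : Finset ι) (F : ι → β → ℝ) :
    Ex μ (fun x => ∑ i ∈ s, F i x) = ∑ i ∈ s, Ex μ (F i) := by
  simp only [Ex, mul_sum]; exact sum_comm

lemma IsProb.Ex_const (h : IsProb μ) (c : ℝ) : Ex μ (fun _ => c) = c := by
  simp only [Ex, ← sum_mul, h.sum_one, one_mul]

lemma IsProb.Ex_mono (h : IsProb μ) {F G : β → ℝ} (hFG : ∀ x, F x ≤ G x) : Ex μ F ≤ Ex μ G :=
  sum_le_sum fun x _ => mul_le_mul_of_nonneg_left (hFG x) (h.nonneg x)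

lemma IsProb.Ex_nonneg (h : IsProb μ) {F : β → ℝ} (hF : ∀ x, 0 ≤ F x) : 0 ≤ Ex μ F :=
  sum_nonneg fun x _ => mul_nonneg (h.nonneg x) (hF x)

end basic

section pi
variable {ι β : Type*} [Fintype ι] [DecidableEq ι] [Fintype β]

/-- product weight -/
noncomputable def piW (μ : ι → β → ℝ) (ω : ι → β) : ℝ := ∏ i, μ i (ω i)

lemma Ex_piW_prod (μ : ι → β → ℝ) (F : ι → β → ℝ) :
    Ex (piW μ) (fun ω => ∏ i, F i (ω i)) = ∏ i, Ex (μ i) (F i) := by
  simp only [Ex, piW]
  rw [Finset.prod_univ_sum, Fintype.piFinset_univ]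
  exact sum_congr rfl fun ω _ => by rw [prod_mul_distrib]

lemma isProb_piW {μ : ι → β → ℝ} (h : ∀ i, IsProb (μ i)) : IsProb (piW μ) where
  nonneg ω := prod_nonneg fun i _ => (h i).nonneg _
  sum_one := by
    have := Ex_piW_prod μ (fun _ _ => 1)
    simp only [Ex, prod_const_one, mul_one, (h _).sum_one] at this
    exact this

lemma Ex_piW_prod_finset {μ : ι → β → ℝ} (h : ∀ i, IsProb (μ i)) (s : Finset ι) (F : ι → β → ℝ) :
    Ex (piW μ) (fun ω => ∏ i ∈ s, F i (ω i)) = ∏ i ∈ s, Ex (μ i) (F i) := by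
  have h1 := Ex_piW_prod μ (fun i b => if i ∈ s then F i b else 1)
  have e1 : ∀ ω : ι → β, (∏ i, if i ∈ s then F i (ω i) else 1) = ∏ i ∈ s, F i (ω i) := by
    intro ω; rw [← Finset.prod_filter]; congr 1; ext; simp
  have e2 : (∏ i, Ex (μ i) fun b => if i ∈ s then F i b else 1) = ∏ i ∈ s, Ex (μ i) (F i) := by
    rw [← Finset.prod_subset (subset_univ s)]
    · exact prod_congr rfl fun i hi => by simp [hi]
    · intro i _ hi; simp only [hi, if_false]; exact (h i).Ex_const 1
  simp only [e1] at h1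
  rw [h1, e2]

lemma Ex_piW_coord {μ : ι → β → ℝ} (h : ∀ i, IsProb (μ i)) (i : ι) (F : β → ℝ) :
    Ex (piW μ) (fun ω => F (ω i)) = Ex (μ i) F := by
  have := Ex_piW_prod_finset h {i} (fun _ => F)
  simpa using this

/-- independence of functions of disjoint sets of coordinates -/
lemma Ex_mul_of_dependsOn {μ : ι → β → ℝ} (h : ∀ i, IsProb (μ i)) {F G : (ι → β) → ℝ}
    {s t : Set ι} (hF : DependsOn F s) (hG : DependsOn G t) (hst : Disjoint s t) :
    Ex (piW μ) (fun ω => F ω * G ω) = Ex (piW μ) F * Ex (piW μ) G := by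
  classical
  let e : (ι → β) × (ι → β) → (ι → β) × (ι → β) :=
    fun z => (s.piecewise z.1 z.2, s.piecewise z.2 z.1)
  have he : Function.Involutive e := by
    rintro ⟨a, b⟩
    ext i <;> by_cases hi : i ∈ s <;> simp [e, hi]
  have h1 : Ex (piW μ) F * Ex (piW μ) G =
      ∑ z : (ι → β) × (ι → β), piW μ z.1 * piW μ z.2 * (F z.1 * G z.2) := by
    simp only [Ex]
    rw [sum_mul_sum, ← univ_product_univ, sum_product]
    exact sum_congr rfl fun a _ => sum_congr rfl fun b _ => by ring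
  have h2 : Ex (piW μ) (fun ω => F ω * G ω) =
      ∑ z : (ι → β) × (ι → β), piW μ z.1 * piW μ z.2 * (F z.1 * G z.1) := by
    rw [← univ_product_univ, sum_product]
    simp only [Ex]
    refine sum_congr rfl fun a _ => ?_
    have : ∑ y : ι → β, piW μ a * piW μ y * (F a * G a) =
        (piW μ a * (F a * G a)) * ∑ y : ι → β, piW μ y := by
      rw [mul_sum]; exact sum_congr rfl fun b _ => by ring
    rw [this, (isProb_piW h).sum_one, mul_one]
  rw [h1, h2]
  refine (Fintype.sum_equiv he.toPerm _ _ ?_).symm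
  rintro ⟨a, b⟩
  simp only [Function.Involutive.coe_toPerm, e]
  have e1 : F (s.piecewise a b) = F a := hF fun i hi => by simp [hi]
  have e2 : G (s.piecewise a b) = G b := hG fun i hi => by
    have : i ∉ s := fun hs => (Set.disjoint_left.mp hst hs) hi
    simp [this]
  have e3 : piW μ (s.piecewise a b) * piW μ (s.piecewise b a) = piW μ a * piW μ b := by
    simp only [piW, ← prod_mul_distrib]
    refine prod_congr rfl fun i _ => ?_
    by_cases hi : i ∈ s
    · simp [hi]
    · simp [hi, mul_comm]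
  rw [e1, e2, e3]

lemma dependsOn_prod {κ : Type*} (K : Finset κ) {F : κ → (ι → β) → ℝ} {s : Set ι}
    (hF : ∀ k ∈ K, DependsOn (F k) s) : DependsOn (fun ω => ∏ k ∈ K, F k ω) s := by
  intro a b hab
  exact prod_congr rfl fun k hk => hF k hk hab

lemma dependsOn_sum {κ : Type*} (K : Finset κ) {F : κ → (ι → β) → ℝ} {s : Set ι}
    (hF : ∀ k ∈ K, DependsOn (F k) s) : DependsOn (fun ω => ∑ k ∈ K, F k ω) s := by
  intro a b hab
  exact sum_congr rfl fun k hk => hF k hk hab

/-- independence for a family over pairwise disjoint blocks -/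
lemma Ex_prod_of_dependsOn {μ : ι → β → ℝ} (h : ∀ i, IsProb (μ i)) {κ : Type*} [DecidableEq κ]
    (K : Finset κ) (F : κ → (ι → β) → ℝ) (s : κ → Set ι) (hF : ∀ k ∈ K, DependsOn (F k) (s k))
    (hs : ∀ k ∈ K, ∀ l ∈ K, k ≠ l → Disjoint (s k) (s l)) :
    Ex (piW μ) (fun ω => ∏ k ∈ K, F k ω) = ∏ k ∈ K, Ex (piW μ) (F k) := by
  induction K using Finset.induction_on with
  | empty => simpa using (isProb_piW h).Ex_const 1
  | insert a K ha ih =>
    simp only [prod_insert ha]
    rw [Ex_mul_of_dependsOn h (hF a (mem_insert_self _ _)) (t := ⋃ k ∈ K, s k), ih]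
    · exact fun k hk => hF k (mem_insert_of_mem hk)
    · exact fun k hk l hl => hs k (mem_insert_of_mem hk) l (mem_insert_of_mem hl)
    · refine dependsOn_prod K fun k hk => (hF k (mem_insert_of_mem hk)).mono ?_
      exact Set.subset_biUnion_of_mem (u := s) (show k ∈ (K : Set κ) from hk)
    · simp only [Set.disjoint_iUnion_right]
      intro k hk
      exact hs a (mem_insert_self _ _) k (mem_insert_of_mem hk) (fun e => ha (e ▸ hk))

end pi

end Crest.Agent.PrimeGap
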