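import Mathlib
import Crest.Agent.PrimeGap.Prob
import Crest.Agent.PrimeGap.Low

/-! Truncated products of centred one-particle functions. -/

set_option autoImplicit false
set_option linter.unusedSectionVars false

namespace Crest.Agent.PrimeGap

open Finset

variable {S : Type*} [Fintype S] [DecidableEq S] {Ω₁ : Type*} [Fintype Ω₁]
  {J : Type*} [Fintype J] [DecidableEq J]

/-- orthogonality data -/
structure OneP (μ : Ω₁ → ℝ) (Λ : J → Ω₁ → ℝ) : Prop where
  prob : IsProb μ
  mean : ∀ j, Ex μ (Λ j) = 0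
  orth : ∀ i j, i ≠ j → Ex μ (fun x => Λ i x * Λ j x) = 0

noncomputable def psi (θ : ℝ) (Λ : J → Ω₁ → ℝ) : Option J → Ω₁ → ℝ
  | none => fun _ => 1
  | some j => fun x => -θ * Λ j x

noncomputable def sw (μ : Ω₁ → ℝ) (θ : ℝ) (Λ : J → Ω₁ → ℝ) (o : Option J) : ℝ :=
  Ex μ (fun x => psi θ Λ o x ^ 2)

noncomputable def Psi (θ : ℝ) (Λ : J → Ω₁ → ℝ) (c : S → Option J) (ω : S → Ω₁) : ℝ :=
  ∏ h, psi θ Λ (c h) (ω h)

def conf (J : Type*) [Fintype J] [DecidableEq J] (A : Finset S) : Finset (S → Option J) :=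
  Fintype.piFinset (fun h => if h ∈ A then univ else {none})

noncomputable def levO (lev : J → ℝ) : Option J → ℝ
  | none => 0
  | some j => lev j

noncomputable def levC (lev : J → ℝ) (c : S → Option J) : ℝ := ∑ h, levO lev (c h)

noncomputable def wt (μ : Ω₁ → ℝ) (θ : ℝ) (Λ : J → Ω₁ → ℝ) (c : S → Option J) : ℝ :=
  ∏ h, sw μ θ Λ (c h)

noncomputable def Poly (θ : ℝ) (Λ : J → Ω₁ → ℝ) (A : Finset S) (α : (S → Option J) → ℝ)
    (ω : S → Ω₁) : ℝ := ∑ c ∈ conf J A, α c * Psi θ Λ c ω

variable {μ : Ω₁ → ℝ} {θ : ℝ} {Λ : J → Ω₁ → ℝ}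

lemma mem_conf {A : Finset S} {c : S → Option J} : c ∈ conf J A ↔ ∀ h, h ∉ A → c h = none := by
  simp only [conf, Fintype.mem_piFinset]
  refine forall_congr' fun h => ?_
  by_cases hh : h ∈ A <;> simp [hh]

/-- sum over configurations of a product whose `none` factor is `1` -/
lemma sum_conf_prod (A : Finset S) (f : S → Option J → ℝ) (hf : ∀ h, h ∉ A → f h none = 1) :
    ∑ c ∈ conf J A, ∏ h, f h (c h) = ∏ h ∈ A, ∑ o, f h o := by
  rw [conf, ← Finset.prod_univ_sum, ← Finset.prod_subset (subset_univ A)]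
  · exact prod_congr rfl fun h hh => by simp [hh]
  · intro h _ hh; simp [hh, hf h hh]

lemma sw_none (h : OneP μ Λ) : sw μ θ Λ none = 1 := by
  simp only [sw, psi, one_pow]; exact h.prob.Ex_const 1

lemma sw_some (j : J) : sw μ θ Λ (some j) = θ ^ 2 * Ex μ (fun x => Λ j x ^ 2) := by
  simp only [sw, psi]
  rw [← Ex_const_mul]; congr 1; ext x; ring

lemma sw_nonneg (h : OneP μ Λ) (o : Option J) : 0 ≤ sw μ θ Λ o :=
  h.prob.Ex_nonneg fun _ => sq_nonneg _

lemma wt_nonneg (h : OneP μ Λ) (c : S → Option J) : 0 ≤ wt μ θ Λ c :=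
  prod_nonneg fun _ _ => sw_nonneg h _

lemma psi_orth (h : OneP μ Λ) (o o' : Option J) :
    Ex μ (fun x => psi θ Λ o x * psi θ Λ o' x) = if o = o' then sw μ θ Λ o else 0 := by
  split_ifs with e
  · subst e; simp only [sw, sq]
  · rcases o with _ | i <;> rcases o' with _ | j
    · exact absurd rfl e
    · simp only [psi, one_mul]; rw [Ex_const_mul, h.mean, mul_zero]
    · simp only [psi, mul_one]; rw [Ex_const_mul, h.mean, mul_zero]
    · simp only [psi]
      have : (fun x => -θ * Λ i x * (-θ * Λ j x)) = fun x => θ ^ 2 * (Λ i x * Λ j x) := by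
        ext x; ring
      rw [this, Ex_const_mul, h.orth i j (fun e' => e (by rw [e'])), mul_zero]

lemma Psi_orth (h : OneP μ Λ) (c c' : S → Option J) :
    Ex (piW fun _ : S => μ) (fun ω => Psi θ Λ c ω * Psi θ Λ c' ω) =
      if c = c' then wt μ θ Λ c else 0 := by
  simp only [Psi, ← prod_mul_distrib]
  rw [Ex_piW_prod (fun _ : S => μ) (fun s x => psi θ Λ (c s) x * psi θ Λ (c' s) x)]
  simp only [psi_orth h]
  split_ifs with e
  · subst e; simp [wt]
  · obtain ⟨s, hs⟩ := Function.ne_iff.mp e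
    exact prod_eq_zero (mem_univ s) (by simp [hs])

lemma Ex_Poly_sq (h : OneP μ Λ) (A : Finset S) (α : (S → Option J) → ℝ) :
    Ex (piW fun _ : S => μ) (fun ω => Poly θ Λ A α ω ^ 2) =
      ∑ c ∈ conf J A, α c ^ 2 * wt μ θ Λ c := by
  have : (fun ω => Poly θ Λ A α ω ^ 2) = fun ω => ∑ c ∈ conf J A, ∑ c' ∈ conf J A,
      α c * α c' * (Psi θ Λ c ω * Psi θ Λ c' ω) := by
    ext ω; rw [sq, Poly, sum_mul_sum]
    exact sum_congr rfl fun c _ => sum_congr rfl fun c' _ => by ring
  rw [this, Ex_sum]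
  refine sum_congr rfl fun c hc => ?_
  rw [Ex_sum]
  simp only [Ex_const_mul, Psi_orth h, mul_ite, mul_zero]
  rw [sum_ite_eq]; simp [hc, sq]

lemma dependsOn_Poly (A : Finset S) (α : (S → Option J) → ℝ) :
    DependsOn (Poly θ Λ A α) (A : Set S) := by
  intro a b hab
  refine sum_congr rfl fun c hc => ?_
  congr 1
  refine prod_congr rfl fun h _ => ?_
  by_cases hh : h ∈ A
  · rw [hab h hh]
  · rw [mem_conf.mp hc h hh]; rfl

lemma abs_Poly_le (hθ : 0 ≤ θ) (A : Finset S) {α : (S → Option J) → ℝ} (hα : ∀ c, |α c| ≤ 1)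
    (ω : S → Ω₁) : |Poly θ Λ A α ω| ≤ ∏ h ∈ A, (1 + θ * ∑ j, |Λ j (ω h)|) := by
  calc |Poly θ Λ A α ω| ≤ ∑ c ∈ conf J A, |α c * Psi θ Λ c ω| := abs_sum_le_sum_abs _ _
    _ ≤ ∑ c ∈ conf J A, ∏ h, |psi θ Λ (c h) (ω h)| := by
        refine sum_le_sum fun c _ => ?_
        rw [abs_mul, Psi, abs_prod]
        exact mul_le_of_le_one_left (prod_nonneg fun _ _ => abs_nonneg _) (hα c)
    _ = ∏ h ∈ A, ∑ o, |psi θ Λ o (ω h)| :=
        sum_conf_prod A (fun h o => |psi θ Λ o (ω h)|) (fun h _ => by simp [psi])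
    _ = _ := by
        refine prod_congr rfl fun h _ => ?_
        rw [Fintype.sum_option, mul_sum]
        simp [psi, abs_mul, abs_of_nonneg hθ]

/-- total one-site weight -/
noncomputable def kap (μ : Ω₁ → ℝ) (θ : ℝ) (Λ : J → Ω₁ → ℝ) : ℝ := ∑ o, sw μ θ Λ o

lemma one_le_kap (h : OneP μ Λ) : 1 ≤ kap μ θ Λ := by
  rw [kap, Fintype.sum_option, sw_none h]
  have : 0 ≤ ∑ j, sw μ θ Λ (some j) := sum_nonneg fun _ _ => sw_nonneg h _
  linarith

lemma sum_wt (h : OneP μ Λ) (A : Finset S) :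
    ∑ c ∈ conf J A, wt μ θ Λ c = kap μ θ Λ ^ A.card := by
  simp only [wt]
  rw [sum_conf_prod A (fun _ o => sw μ θ Λ o) (fun _ _ => sw_none h), prod_const]; rfl

lemma sum_wt_lev (h : OneP μ Λ) (A : Finset S) {lev : J → ℝ} (hlev : ∀ j, 0 ≤ lev j) :
    ∑ c ∈ conf J A, wt μ θ Λ c * levC lev c ≤
      kap μ θ Λ ^ A.card * (A.card * ∑ j, sw μ θ Λ (some j) * lev j) := by
  have e1 : ∀ c ∈ conf J A, levC lev c = ∑ s ∈ A, levO lev (c s) := by
    intro c hc
    rw [levC, ← Finset.sum_subset (subset_univ A)]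
    intro s _ hs; rw [mem_conf.mp hc s hs]; rfl
  have hm : 0 ≤ ∑ j, sw μ θ Λ (some j) * lev j :=
    sum_nonneg fun j _ => mul_nonneg (sw_nonneg h _) (hlev j)
  have hk := one_le_kap (θ := θ) h
  calc ∑ c ∈ conf J A, wt μ θ Λ c * levC lev c
      = ∑ s ∈ A, ∑ c ∈ conf J A, wt μ θ Λ c * levO lev (c s) := by
        rw [sum_comm]; refine sum_congr rfl fun c hc => ?_; rw [e1 c hc, mul_sum]
    _ ≤ ∑ s ∈ A, kap μ θ Λ ^ A.card * ∑ j, sw μ θ Λ (some j) * lev j := by
        refine sum_le_sum fun s hs => ?_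
        have e2 : ∀ c : S → Option J, wt μ θ Λ c * levO lev (c s) =
            ∏ h, (sw μ θ Λ (c h) * if h = s then levO lev (c h) else 1) := by
          intro c; rw [prod_mul_distrib, wt]; simp
        simp only [e2]
        rw [sum_conf_prod A (fun h o => sw μ θ Λ o * if h = s then levO lev o else 1)]
        · rw [← Finset.mul_prod_erase A _ hs]
          have e3 : ∏ x ∈ A.erase s, ∑ o, (sw μ θ Λ o * if x = s then levO lev o else 1) =
              kap μ θ Λ ^ (A.card - 1) := by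
            rw [← card_erase_of_mem hs, ← prod_const]
            refine prod_congr rfl fun x hx => ?_
            simp [ne_of_mem_erase hx, kap]
          rw [e3, Fintype.sum_option]
          simp only [if_true, levO, mul_zero, zero_add]
          rw [mul_comm]
          gcongr
          omega
        · intro x hx
          have : x ≠ s := fun e => hx (e ▸ hs)
          simp [this, sw_none h]
    _ = _ := by rw [sum_const, nsmul_eq_mul]; ring

lemma sum_conf_split {A : Finset S} {s : S} (hs : s ∈ A) (g : (S → Option J) → ℝ) :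
    ∑ c ∈ conf J A, g c = ∑ c ∈ conf J (A.erase s), ∑ o, g (Function.update c s o) := by
  rw [← sum_product' (f := fun c o => g (Function.update c s o))]
  symm
  refine sum_nbij' (fun z => Function.update z.1 s z.2) (fun c => (Function.update c s none, c s))
    ?_ ?_ ?_ ?_ ?_
  · rintro ⟨c, o⟩ hz
    simp only [mem_product, mem_conf] at hz ⊢
    intro h hh
    have : h ≠ s := fun e => hh (e ▸ hs)
    rw [Function.update_of_ne this]
    exact hz.1 h (fun e => hh (mem_of_mem_erase e))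
  · intro c hc
    simp only [mem_product, mem_conf, mem_univ, and_true] at hc ⊢
    intro h hh
    by_cases e : h = s
    · subst e; simp
    · rw [Function.update_of_ne e]; exact hc h (fun e' => hh (mem_erase.mpr ⟨e, e'⟩))
  · rintro ⟨c, o⟩ hz
    simp only [mem_product, mem_conf] at hz
    have : c s = none := hz.1 s (by simp)
    simp only [Function.update_idem, Function.update_self, Prod.mk.injEq, and_true]
    rw [← this]; simp
  · intro c _; simp
  · intro z _; rfl

lemma levC_update (lev : J → ℝ) {c : S → Option J} {s : S} (hc : c s = none) (o : Option J) :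
    levC lev (Function.update c s o) = levC lev c + levO lev o := by
  simp only [levC]
  rw [← Finset.add_sum_erase univ _ (mem_univ s), ← Finset.add_sum_erase univ _ (mem_univ s)]
  have : ∑ x ∈ univ.erase s, levO lev (Function.update c s o x) =
      ∑ x ∈ univ.erase s, levO lev (c x) :=
    sum_congr rfl fun x hx => by rw [Function.update_of_ne (ne_of_mem_erase hx)]
  rw [this, hc]; simp [levO]; ring

lemma Psi_update {c : S → Option J} {s : S} (hc : c s = none) (o : Option J) (ω : S → Ω₁) :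
    Psi θ Λ (Function.update c s o) ω = psi θ Λ o (ω s) * Psi θ Λ c ω := by
  simp only [Psi]
  rw [← Finset.mul_prod_erase univ _ (mem_univ s), ← Finset.mul_prod_erase univ _ (mem_univ s)]
  have : ∏ x ∈ univ.erase s, psi θ Λ (Function.update c s o x) (ω x) =
      ∏ x ∈ univ.erase s, psi θ Λ (c x) (ω x) :=
    prod_congr rfl fun x hx => by rw [Function.update_of_ne (ne_of_mem_erase hx)]
  rw [this, hc]; simp [psi]

lemma levC_nonneg {lev : J → ℝ} (hlev : ∀ j, 0 ≤ lev j) (c : S → Option J) : 0 ≤ levC lev c :=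
  sum_nonneg fun h _ => by rcases c h with _ | j <;> simp [levO, hlev]

lemma low_Poly {Q : ℕ} (hQ : 0 < Q) (hθ : 0 ≤ θ) (hθJ : θ * Fintype.card J = 1) {lev : J → ℝ}
    (hlevS : ∀ j, Fintype.card S * Real.exp (-lev j) ≤ 1) (ω : ℕ → S → Ω₁)
    (hΛ : ∀ j h, Low Q (fun n => Λ j (ω n h)) (Real.exp (lev j))) (A : Finset S)
    {α : (S → Option J) → ℝ} {L : ℝ} (hα : ∀ c, |α c| ≤ 1) (hαL : ∀ c, L < levC lev c → α c = 0) :
    Low Q (fun n => Poly θ Λ A α (ω n)) (Real.exp (2 * L + 1)) := by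
  let b : Option J → ℝ := fun o => match o with
    | none => 1
    | some j => θ * Real.exp (-lev j)
  have hb0 : ∀ o, 0 ≤ b o := by
    rintro (_ | j)
    · simp [b]
    · simp only [b]; positivity
  have h1 : ∀ o h, Low Q (fun n => psi θ Λ o (ω n h)) (b o * Real.exp (2 * levO lev o)) := by
    rintro (_ | j) h
    · simpa [psi, b, levO] using Low.const (Q := Q) 1
    · refine ((hΛ j h).const_mul hQ (-θ)).mono (le_of_eq ?_)
      simp only [b, levO, abs_neg, abs_of_nonneg hθ, mul_assoc, ← Real.exp_add]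
      congr 2; ring
  have h2 : ∀ c ∈ conf J A, Low Q (fun n => α c * Psi θ Λ c (ω n))
      (Real.exp (2 * L) * ∏ h, b (c h)) := by
    intro c _
    have h3 := (Low.prod hQ univ (fun h _ => h1 (c h) h)).const_mul hQ (α c)
    refine h3.mono ?_
    have hp : 0 ≤ ∏ h, b (c h) := prod_nonneg fun _ _ => hb0 _
    by_cases hc : L < levC lev c
    · rw [hαL c hc, abs_zero, zero_mul]; positivity
    · rw [prod_mul_distrib, ← Real.exp_sum, ← mul_sum]
      have : Real.exp (2 * ∑ h, levO lev (c h)) ≤ Real.exp (2 * L) := by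
        apply Real.exp_le_exp.mpr
        have := not_lt.mp hc
        rw [levC] at this; linarith
      calc |α c| * ((∏ h, b (c h)) * Real.exp (2 * ∑ h, levO lev (c h)))
          ≤ 1 * ((∏ h, b (c h)) * Real.exp (2 * L)) := by gcongr; exact hα c
        _ = _ := by ring
  refine (Low.sum _ h2).mono ?_
  rw [← mul_sum, sum_conf_prod A (fun _ o => b o) (fun _ _ => rfl), Real.exp_add]
  gcongr
  rw [prod_const, Fintype.sum_option]
  have h4 : (A.card : ℝ) * ∑ j, b (some j) ≤ 1 := by
    have : (A.card : ℝ) ≤ Fintype.card S := by exact_mod_cast card_le_univ A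
    calc (A.card : ℝ) * ∑ j, b (some j) = θ * ∑ j, A.card * Real.exp (-lev j) := by
          simp only [b, mul_sum]; exact sum_congr rfl fun j _ => by ring
      _ ≤ θ * ∑ j : J, (1 : ℝ) := by
          gcongr with j
          exact le_trans (by gcongr) (hlevS j)
      _ = 1 := by simpa using hθJ
  have h5 : 0 ≤ ∑ j, b (some j) := sum_nonneg fun j _ => hb0 (some j)
  calc (b none + ∑ j, b (some j)) ^ A.card ≤ (Real.exp (∑ j, b (some j))) ^ A.card := by
        refine pow_le_pow_left₀ (add_nonneg (hb0 none) h5) ?_ _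
        simp only [b]; rw [add_comm]; exact Real.add_one_le_exp _
    _ = Real.exp (A.card * ∑ j, b (some j)) := by rw [← Real.exp_nat_mul]
    _ ≤ Real.exp 1 := Real.exp_le_exp.mpr h4

end Crest.Agent.PrimeGap
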