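import Mathlib
import Crest.Agent.PrimeGap.Fock

/-! Window weights and the block majorant. -/

set_option autoImplicit false
set_option linter.unusedSectionVars false

namespace Crest.Agent.PrimeGap

open Finset

variable {S : Type*} [Fintype S] [DecidableEq S] {Ω₁ : Type*} [Fintype Ω₁]
  {J : Type*} [Fintype J] [DecidableEq J]

noncomputable def aW (lev : J → ℝ) (L : ℝ) (c : S → Option J) : ℝ :=
  if levC lev c ≤ L then 1 else 0

noncomputable def aV (θ : ℝ) (lev : J → ℝ) (L : ℝ) (c : S → Option J) : ℝ :=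
  aW lev L c - θ * ∑ j, (if levC lev c + lev j ≤ L then 1 else 0)

/-- global data of the construction -/
structure Dat (Ω₁ : Type*) [Fintype Ω₁] (J : Type*) [Fintype J] where
  μ : Ω₁ → ℝ
  θ : ℝ
  Λ : J → Ω₁ → ℝ
  lev : J → ℝ
  L : ℝ
  γ : J → ℝ
  j₀ : J
  one : OneP μ Λ
  hθ : 0 ≤ θ
  hθJ : θ * Fintype.card J = 1
  hlev0 : ∀ j, 0 ≤ lev j
  hlevL : ∀ j, lev j ≤ L / 2
  hL : 0 < L
  h2 : ∀ j, Ex μ (fun x => Λ j x ^ 2) ≤ γ j
  h4 : ∀ j, Ex μ (fun x => (1 + |Λ j x|) ^ 4) ≤ 1 + 15 * γ j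

namespace Dat
variable (d : Dat Ω₁ J)

noncomputable def E (F : (S → Ω₁) → ℝ) : ℝ := Ex (piW fun _ : S => d.μ) F

noncomputable def W (A : Finset S) : (S → Ω₁) → ℝ := Poly d.θ d.Λ A (aW d.lev d.L)

noncomputable def V (A : Finset S) (h : S) : (S → Ω₁) → ℝ :=
  Poly d.θ d.Λ (A.erase h) (aV d.θ d.lev d.L)

noncomputable def U (A : Finset S) (ω : S → Ω₁) : ℝ :=
  ∑ h ∈ A, d.Λ d.j₀ (ω h) ^ 2 * d.V A h ω ^ 2

noncomputable def K (A : Finset S) : ℝ := d.E (fun ω => d.W A ω ^ 2)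

/-- a window that is not too full -/
structure Good (A : Finset S) (ε D₂ D₃ : ℝ) : Prop where
  g1 : ∀ j, d.θ * (A.card * d.γ j * d.lev j) ≤ ε * d.L
  g2 : ∀ j, A.card * d.γ j ≤ D₂
  g3 : A.card * d.γ d.j₀ ≤ D₃
  hε : ε ≤ 1 / 2

lemma prob : IsProb (piW fun _ : S => d.μ) := isProb_piW fun _ => d.one.prob

lemma γ_nonneg (j : J) : 0 ≤ d.γ j := (d.one.prob.Ex_nonneg fun _ => sq_nonneg _).trans (d.h2 j)

lemma abs_aW (c : S → Option J) : |aW d.lev d.L c| ≤ 1 := by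
  unfold aW; split_ifs <;> simp

lemma aW_zero (c : S → Option J) (hc : d.L < levC d.lev c) : aW d.lev d.L c = 0 := by
  simp [aW, not_le.mpr hc]

lemma aV_zero (c : S → Option J) (hc : d.L < levC d.lev c) : aV d.θ d.lev d.L c = 0 := by
  rw [aV, d.aW_zero c hc, sum_eq_zero, mul_zero, sub_zero]
  intro j _
  have := d.hlev0 j
  rw [if_neg]; linarith

lemma aV_zero' (c : S → Option J) (hc : levC d.lev c ≤ d.L / 2) : aV d.θ d.lev d.L c = 0 := by
  have hL := d.hL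
  have e : ∀ j, (if levC d.lev c + d.lev j ≤ d.L then (1 : ℝ) else 0) = 1 := by
    intro j; have := d.hlevL j; rw [if_pos]; linarith
  simp only [aV, e, aW]
  rw [if_pos (by linarith)]
  simp [d.hθJ]

lemma abs_aV (c : S → Option J) : |aV d.θ d.lev d.L c| ≤ 1 := by
  by_cases hc : d.L < levC d.lev c
  · simp [d.aV_zero c hc]
  · have h0 : 0 ≤ d.θ * ∑ j, (if levC d.lev c + d.lev j ≤ d.L then (1 : ℝ) else 0) :=
      mul_nonneg d.hθ (sum_nonneg fun j _ => by split_ifs <;> simp)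
    have h1 : d.θ * ∑ j, (if levC d.lev c + d.lev j ≤ d.L then (1 : ℝ) else 0) ≤ 1 := by
      calc _ ≤ d.θ * ∑ j : J, (1 : ℝ) := by
            have := d.hθ
            gcongr with j; split_ifs <;> simp
        _ = 1 := by simpa using d.hθJ
    rw [aV, aW, if_pos (not_lt.mp hc), abs_le]; constructor <;> linarith

lemma W_eq_V {A : Finset S} {h : S} (hh : h ∈ A) {ω : S → Ω₁} (h1 : ∀ j, d.Λ j (ω h) = 1) :
    d.W A ω = d.V A h ω := by
  rw [W, V, Poly, Poly, sum_conf_split hh]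
  refine sum_congr rfl fun c hc => ?_
  have hc0 : c h = none := mem_conf.mp hc h (by simp)
  simp only [Psi_update hc0, aW, aV, levC_update _ hc0, Fintype.sum_option, psi, levO, h1,
    add_zero, one_mul, mul_one, mul_sum, sum_mul, sub_eq_add_neg, ← sum_neg_distrib,
    add_mul]
  congr 1
  exact sum_congr rfl fun j _ => by ring

lemma W_sq_le_U {A : Finset S} {h : S} (hh : h ∈ A) {ω : S → Ω₁} (h1 : ∀ j, d.Λ j (ω h) = 1) :
    d.W A ω ^ 2 ≤ d.U A ω := by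
  rw [d.W_eq_V hh h1, U]
  have := single_le_sum (f := fun h => d.Λ d.j₀ (ω h) ^ 2 * d.V A h ω ^ 2)
    (fun _ _ => by positivity) hh
  simpa [h1] using this

lemma U_nonneg (A : Finset S) (ω : S → Ω₁) : 0 ≤ d.U A ω :=
  sum_nonneg fun _ _ => by positivity

variable {d}
variable {A : Finset S} {ε D₂ D₃ : ℝ}

lemma Good.mbar (g : d.Good A ε D₂ D₃) :
    A.card * ∑ j, sw d.μ d.θ d.Λ (some j) * d.lev j ≤ ε * d.L := by
  calc A.card * ∑ j, sw d.μ d.θ d.Λ (some j) * d.lev j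
      ≤ A.card * ∑ j, d.θ ^ 2 * d.γ j * d.lev j := by
        gcongr with j
        · exact d.hlev0 j
        · rw [sw_some]; gcongr; exact d.h2 j
    _ = d.θ * ∑ j, d.θ * (A.card * d.γ j * d.lev j) := by
        simp only [mul_sum]; exact sum_congr rfl fun j _ => by ring
    _ ≤ d.θ * ∑ j : J, ε * d.L := by
        exact mul_le_mul_of_nonneg_left (sum_le_sum fun j _ => g.g1 j) d.hθ
    _ = (d.θ * Fintype.card J) * (ε * d.L) := by simp; ring
    _ = _ := by rw [d.hθJ, one_mul]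

lemma Good.K_ge (g : d.Good A ε D₂ D₃) : kap d.μ d.θ d.Λ ^ A.card / 2 ≤ d.K A := by
  have hL := d.hL
  have h1 := sum_wt_lev (θ := d.θ) d.one A d.hlev0
  have h2 := g.mbar
  have hk : 0 ≤ kap d.μ d.θ d.Λ ^ A.card := pow_nonneg (zero_le_one.trans (one_le_kap d.one)) _
  have h3 : ∑ c ∈ conf J A, wt d.μ d.θ d.Λ c * levC d.lev c ≤
      kap d.μ d.θ d.Λ ^ A.card * (1 / 2 * d.L) := by
    refine h1.trans (mul_le_mul_of_nonneg_left (h2.trans ?_) hk)
    gcongr; exact g.hε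
  rw [K, E, W, Ex_Poly_sq d.one]
  have h4 : ∑ c ∈ conf J A, (wt d.μ d.θ d.Λ c - wt d.μ d.θ d.Λ c * levC d.lev c / d.L) ≤
      ∑ c ∈ conf J A, aW d.lev d.L c ^ 2 * wt d.μ d.θ d.Λ c := by
    refine sum_le_sum fun c _ => ?_
    have hw := wt_nonneg (θ := d.θ) d.one c
    have hl := levC_nonneg d.hlev0 c
    unfold aW
    split_ifs with hc
    · have : 0 ≤ wt d.μ d.θ d.Λ c * levC d.lev c / d.L := by positivity
      linarith
    · have : wt d.μ d.θ d.Λ c ≤ wt d.μ d.θ d.Λ c * levC d.lev c / d.L := by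
        rw [le_div_iff₀ hL]; gcongr; exact (not_le.mp hc).le
      linarith
  rw [sum_sub_distrib, sum_wt d.one, ← sum_div] at h4
  have h5 : (∑ c ∈ conf J A, wt d.μ d.θ d.Λ c * levC d.lev c) / d.L ≤
      kap d.μ d.θ d.Λ ^ A.card / 2 := by
    rw [div_le_iff₀ hL]; linarith
  linarith

lemma Good.K_ge_half (g : d.Good A ε D₂ D₃) : 1 / 2 ≤ d.K A := by
  have := g.K_ge
  have h1 : 1 ≤ kap d.μ d.θ d.Λ ^ A.card := one_le_pow₀ (one_le_kap d.one)
  linarith

lemma Good.ε_nonneg (g : d.Good A ε D₂ D₃) : 0 ≤ ε := by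
  have h1 := g.g1 d.j₀
  have : 0 ≤ d.θ * (A.card * d.γ d.j₀ * d.lev d.j₀) := by
    have := d.hθ; have := d.γ_nonneg d.j₀; have := d.hlev0 d.j₀; positivity
  exact nonneg_of_mul_nonneg_left (this.trans h1) d.hL

lemma Good.E_V_sq (g : d.Good A ε D₂ D₃) (h : S) :
    d.E (fun ω => d.V A h ω ^ 2) ≤ 4 * ε * d.K A := by
  have hL := d.hL
  have hε := g.ε_nonneg
  have h1 := sum_wt_lev (θ := d.θ) d.one (A.erase h) d.hlev0
  have h2 := g.mbar
  have hk1 := one_le_kap (θ := d.θ) d.one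
  have hm : 0 ≤ ∑ j, sw d.μ d.θ d.Λ (some j) * d.lev j :=
    sum_nonneg fun j _ => mul_nonneg (sw_nonneg d.one _) (d.hlev0 j)
  have hc : (A.erase h).card ≤ A.card := card_erase_le
  have h3 : ∑ c ∈ conf J (A.erase h), wt d.μ d.θ d.Λ c * levC d.lev c ≤
      kap d.μ d.θ d.Λ ^ A.card * (ε * d.L) := by
    refine h1.trans (mul_le_mul (pow_le_pow_right₀ hk1 hc) (le_trans ?_ h2) (by positivity)
      (by positivity))
    gcongr
  rw [E, V, Ex_Poly_sq d.one]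
  have h4 : ∑ c ∈ conf J (A.erase h), aV d.θ d.lev d.L c ^ 2 * wt d.μ d.θ d.Λ c ≤
      ∑ c ∈ conf J (A.erase h), 2 * (wt d.μ d.θ d.Λ c * levC d.lev c) / d.L := by
    refine sum_le_sum fun c _ => ?_
    have hw := wt_nonneg (θ := d.θ) d.one c
    have hl := levC_nonneg d.hlev0 c
    by_cases hc : levC d.lev c ≤ d.L / 2
    · rw [d.aV_zero' c hc]
      have : 0 ≤ 2 * (wt d.μ d.θ d.Λ c * levC d.lev c) / d.L := by positivity
      simpa using this
    · have h5 : aV d.θ d.lev d.L c ^ 2 ≤ 1 := by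
        rw [← sq_abs]; exact pow_le_one₀ (abs_nonneg _) (d.abs_aV c)
      rw [le_div_iff₀ hL]
      have h6 : d.L ≤ 2 * levC d.lev c := by linarith
      calc aV d.θ d.lev d.L c ^ 2 * wt d.μ d.θ d.Λ c * d.L
          ≤ 1 * wt d.μ d.θ d.Λ c * (2 * levC d.lev c) := by gcongr
        _ = _ := by ring
  refine h4.trans ?_
  rw [← sum_div, ← mul_sum, div_le_iff₀ hL]
  have h7 := g.K_ge
  have h8 : kap d.μ d.θ d.Λ ^ A.card * (ε * d.L) ≤ (2 * d.K A) * (ε * d.L) := by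
    gcongr; linarith
  nlinarith

lemma Good.E_U (g : d.Good A ε D₂ D₃) : d.E (d.U A) ≤ 4 * ε * D₃ * d.K A := by
  have hK : 0 ≤ 4 * ε * d.K A := by
    have := g.ε_nonneg; have := g.K_ge_half; positivity
  have e : d.E (d.U A) = ∑ h ∈ A, d.E (fun ω => d.Λ d.j₀ (ω h) ^ 2 * d.V A h ω ^ 2) :=
    Ex_sum A (fun h ω => d.Λ d.j₀ (ω h) ^ 2 * d.V A h ω ^ 2)
  rw [e]
  calc ∑ h ∈ A, d.E (fun ω => d.Λ d.j₀ (ω h) ^ 2 * d.V A h ω ^ 2)
      ≤ ∑ h ∈ A, d.γ d.j₀ * (4 * ε * d.K A) := by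
        refine sum_le_sum fun h _ => ?_
        rw [E, Ex_mul_of_dependsOn (fun _ => d.one.prob) (s := {h}) (t := (A.erase h : Finset S))]
        · rw [Ex_piW_coord (fun _ => d.one.prob) h (fun x => d.Λ d.j₀ x ^ 2)]
          exact mul_le_mul (d.h2 _) (g.E_V_sq h) (d.prob.Ex_nonneg fun _ => sq_nonneg _)
            (d.γ_nonneg _)
        · intro a b hab; simp only [hab h rfl]
        · intro a b hab
          have := dependsOn_Poly (θ := d.θ) (Λ := d.Λ) (A.erase h) (aV d.θ d.lev d.L) hab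
          simp only [V, this]
        · simp
    _ = (A.card * d.γ d.j₀) * (4 * ε * d.K A) := by rw [sum_const, nsmul_eq_mul]; ring
    _ ≤ D₃ * (4 * ε * d.K A) := by gcongr; exact g.g3
    _ = _ := by ring

lemma Good.E_W4 (g : d.Good A ε D₂ D₃) : d.E (fun ω => d.W A ω ^ 4) ≤ Real.exp (15 * D₂) := by
  have hθ := d.hθ
  -- convexity
  have hconv : ∀ x, (1 + d.θ * ∑ j, |d.Λ j x|) ^ 4 ≤ ∑ j, d.θ * (1 + |d.Λ j x|) ^ 4 := by
    intro x
    have h1 : (1 + d.θ * ∑ j, |d.Λ j x|) = ∑ j, d.θ * (1 + |d.Λ j x|) := by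
      simp only [mul_add, sum_add_distrib, mul_sum, mul_one, sum_const, card_univ, nsmul_eq_mul]
      rw [mul_comm, d.hθJ]
    rw [h1]
    exact Real.pow_arith_mean_le_arith_mean_pow univ (fun _ => d.θ) (fun j => 1 + |d.Λ j x|)
      (fun _ _ => hθ) (by simpa [mul_comm] using d.hθJ) (fun _ _ => by positivity) 4
  have h2 : Ex d.μ (fun x => (1 + d.θ * ∑ j, |d.Λ j x|) ^ 4) ≤ 1 + 15 * ∑ j, d.θ * d.γ j := by
    refine (d.one.prob.Ex_mono hconv).trans ?_
    rw [Ex_sum]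
    simp only [Ex_const_mul]
    calc ∑ j, d.θ * Ex d.μ (fun x => (1 + |d.Λ j x|) ^ 4) ≤ ∑ j, d.θ * (1 + 15 * d.γ j) := by
          gcongr with j; exact d.h4 j
      _ = d.θ * Fintype.card J + 15 * ∑ j, d.θ * d.γ j := by
          simp only [mul_add, sum_add_distrib, mul_sum, mul_one, sum_const, card_univ,
            nsmul_eq_mul]
          congr 1
          · ring
          · exact sum_congr rfl fun j _ => by ring
      _ = _ := by rw [d.hθJ]
  have h3 : A.card * ∑ j, d.θ * d.γ j ≤ D₂ := by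
    calc A.card * ∑ j, d.θ * d.γ j = ∑ j, d.θ * (A.card * d.γ j) := by
          rw [mul_sum]; exact sum_congr rfl fun j _ => by ring
      _ ≤ ∑ j : J, d.θ * D₂ := by gcongr with j; exact g.g2 j
      _ = (d.θ * Fintype.card J) * D₂ := by simp; ring
      _ = D₂ := by rw [d.hθJ, one_mul]
  calc d.E (fun ω => d.W A ω ^ 4)
      ≤ d.E (fun ω => ∏ h ∈ A, (1 + d.θ * ∑ j, |d.Λ j (ω h)|) ^ 4) := by
        refine d.prob.Ex_mono fun ω => ?_
        rw [prod_pow, show d.W A ω ^ 4 = |d.W A ω| ^ 4 by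
          rw [show (4 : ℕ) = 2 * 2 from rfl, pow_mul, pow_mul, sq_abs]]
        exact pow_le_pow_left₀ (abs_nonneg _) (abs_Poly_le hθ A d.abs_aW ω) 4
    _ = ∏ h ∈ A, Ex d.μ (fun x => (1 + d.θ * ∑ j, |d.Λ j x|) ^ 4) :=
        Ex_piW_prod_finset (fun _ => d.one.prob) A (fun _ x => (1 + d.θ * ∑ j, |d.Λ j x|) ^ 4)
    _ ≤ Real.exp (15 * ∑ j, d.θ * d.γ j) ^ A.card := by
        rw [prod_const]
        refine pow_le_pow_left₀ (d.one.prob.Ex_nonneg fun _ => by positivity) (h2.trans ?_) _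
        rw [add_comm]; exact Real.add_one_le_exp _
    _ ≤ _ := by
        rw [← Real.exp_nat_mul]; apply Real.exp_le_exp.mpr; nlinarith

variable (d)
variable {κ : Type*} [DecidableEq κ]

noncomputable def Y (I : Finset κ) (A : κ → Finset S) (ω : S → Ω₁) : ℝ :=
  (∑ i ∈ I, d.W (A i) ω ^ 2 / d.K (A i)) / I.card

noncomputable def Fb (I : Finset κ) (A : κ → Finset S) (ω : S → Ω₁) : ℝ :=
  2 * ((∑ i ∈ I, d.U (A i) ω / d.K (A i)) / I.card) + 4 * (d.Y I A ω - 1) ^ 2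

variable {d}
variable {I : Finset κ} {A : κ → Finset S}

lemma Fb_nonneg (g : ∀ i ∈ I, d.Good (A i) ε D₂ D₃) (ω : S → Ω₁) : 0 ≤ d.Fb I A ω := by
  have : 0 ≤ ∑ i ∈ I, d.U (A i) ω / d.K (A i) := sum_nonneg fun i hi =>
    div_nonneg (d.U_nonneg _ _) (by linarith [(g i hi).K_ge_half])
  unfold Fb; positivity

lemma one_le_Fb (g : ∀ i ∈ I, d.Good (A i) ε D₂ D₃) {ω : S → Ω₁}
    (h : ∀ i ∈ I, ∃ h ∈ A i, ∀ j, d.Λ j (ω h) = 1) : 1 ≤ d.Fb I A ω := by
  have h0 : 0 ≤ ∑ i ∈ I, d.U (A i) ω / d.K (A i) := sum_nonneg fun i hi =>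
    div_nonneg (d.U_nonneg _ _) (by linarith [(g i hi).K_ge_half])
  have h1 : d.Y I A ω ≤ (∑ i ∈ I, d.U (A i) ω / d.K (A i)) / I.card := by
    unfold Y
    gcongr with i hi
    · linarith [(g i hi).K_ge_half]
    · obtain ⟨s, hs, h1⟩ := h i hi
      exact d.W_sq_le_U hs h1
  have h2 : 0 ≤ (∑ i ∈ I, d.U (A i) ω / d.K (A i)) / I.card := by positivity
  unfold Fb
  by_cases hY : 1 / 2 ≤ d.Y I A ω
  · nlinarith [sq_nonneg (d.Y I A ω - 1)]
  · nlinarith

lemma E_Fb (g : ∀ i ∈ I, d.Good (A i) ε D₂ D₃) (hI : I.Nonempty)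
    (hd : ∀ i ∈ I, ∀ i' ∈ I, i ≠ i' → Disjoint (A i) (A i')) :
    d.E (d.Fb I A) ≤ 8 * ε * D₃ + 16 * Real.exp (15 * D₂) / I.card := by
  have hc : (0 : ℝ) < I.card := by exact_mod_cast hI.card_pos
  have hK : ∀ i ∈ I, 0 < d.K (A i) := fun i hi => by linarith [(g i hi).K_ge_half]
  have e1 : d.E (fun ω => (∑ i ∈ I, d.U (A i) ω / d.K (A i)) / I.card) ≤ 4 * ε * D₃ := by
    rw [E, Ex_div_const, Ex_sum, div_le_iff₀ hc]
    calc _ ≤ ∑ i ∈ I, 4 * ε * D₃ := by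
          refine sum_le_sum fun i hi => ?_
          rw [Ex_div_const, div_le_iff₀ (hK i hi)]
          exact (g i hi).E_U
      _ = _ := by rw [sum_const, nsmul_eq_mul]; ring
  let Z : κ → (S → Ω₁) → ℝ := fun i ω => d.W (A i) ω ^ 2 / d.K (A i) - 1
  have hZ0 : ∀ i ∈ I, d.E (Z i) = 0 := by
    intro i hi
    simp only [Z, E]
    rw [Ex_sub, Ex_div_const, d.prob.Ex_const]
    have : Ex (piW fun _ : S => d.μ) (fun ω => d.W (A i) ω ^ 2) = d.K (A i) := rfl
    rw [this, div_self (hK i hi).ne', sub_self]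
  have hZdep : ∀ i, DependsOn (Z i) (A i : Set S) := by
    intro i a b hab
    have := dependsOn_Poly (θ := d.θ) (Λ := d.Λ) (A i) (aW d.lev d.L) hab
    simp only [Z, W, this]
  have hZ2 : ∀ i ∈ I, d.E (fun ω => Z i ω * Z i ω) ≤ 4 * Real.exp (15 * D₂) := by
    intro i hi
    have hk := (g i hi).K_ge_half
    have e : (fun ω => Z i ω * Z i ω) =
        fun ω => (d.W (A i) ω ^ 4 / d.K (A i) ^ 2 - 2 * Z i ω) - 1 := by
      ext ω; simp only [Z]; have := (hK i hi).ne'; field_simp; ring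
    have h0 := hZ0 i hi
    rw [E] at h0
    rw [e, E, Ex_sub, Ex_sub, Ex_div_const, Ex_const_mul, h0, d.prob.Ex_const]
    have h4 := (g i hi).E_W4
    rw [E] at h4
    have h5 : Ex (piW fun _ : S => d.μ) (fun ω => d.W (A i) ω ^ 4) / d.K (A i) ^ 2 ≤
        4 * Real.exp (15 * D₂) := by
      rw [div_le_iff₀ (pow_pos (hK i hi) 2)]
      have : 1 ≤ 4 * d.K (A i) ^ 2 := by nlinarith
      nlinarith [Real.exp_pos (15 * D₂)]
    linarith
  have e2 : d.E (fun ω => (d.Y I A ω - 1) ^ 2) ≤ 4 * Real.exp (15 * D₂) / I.card := by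
    have e : (fun ω => (d.Y I A ω - 1) ^ 2) =
        fun ω => (∑ i ∈ I, ∑ i' ∈ I, Z i ω * Z i' ω) / I.card ^ 2 := by
      ext ω
      rw [← sum_mul_sum, ← sq, ← div_pow]
      congr 1
      simp only [Z, Y, sum_sub_distrib, sum_const, nsmul_eq_mul, mul_one]
      field_simp
    rw [e, E, Ex_div_const, Ex_sum, div_le_iff₀ (pow_pos hc 2)]
    calc _ ≤ ∑ i ∈ I, 4 * Real.exp (15 * D₂) := by
          refine sum_le_sum fun i hi => ?_
          rw [Ex_sum, ← Finset.add_sum_erase I _ hi, sum_eq_zero, add_zero]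
          · exact hZ2 i hi
          · intro i' hi'
            have hi'' := mem_of_mem_erase hi'
            rw [Ex_mul_of_dependsOn (fun _ => d.one.prob) (hZdep i) (hZdep i')
              (by exact_mod_cast hd i hi i' hi'' (ne_of_mem_erase hi').symm)]
            have := hZ0 i hi
            rw [E] at this
            rw [this, zero_mul]
      _ = _ := by rw [sum_const, nsmul_eq_mul]; field_simp
  have e3 : d.E (d.Fb I A) = 2 * d.E (fun ω => (∑ i ∈ I, d.U (A i) ω / d.K (A i)) / I.card) +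
      4 * d.E (fun ω => (d.Y I A ω - 1) ^ 2) := by
    simp only [E]
    rw [← Ex_const_mul, ← Ex_const_mul, ← Ex_add]; rfl
  rw [e3]
  have : 16 * Real.exp (15 * D₂) / I.card = 4 * (4 * Real.exp (15 * D₂) / I.card) := by ring
  linarith

lemma low_Fb {Q : ℕ} (hQ : 0 < Q) (g : ∀ i ∈ I, d.Good (A i) ε D₂ D₃) (hI : I.Nonempty)
    (hlevS : ∀ j, Fintype.card S * Real.exp (-d.lev j) ≤ 1) (ω : ℕ → S → Ω₁)
    (hΛ : ∀ j h, Low Q (fun n => d.Λ j (ω n h)) (Real.exp (d.lev j))) :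
    Low Q (fun n => d.Fb I A (ω n)) ((4 * Fintype.card S + 36) * Real.exp (8 * d.L + 4)) := by
  have hc : (0 : ℝ) < I.card := by exact_mod_cast hI.card_pos
  have hL := d.hL
  have hK : ∀ i ∈ I, |(d.K (A i))⁻¹| ≤ 2 := fun i hi => by
    have := (g i hi).K_ge_half
    rw [abs_of_nonneg (by positivity), inv_le_comm₀ (by linarith) (by norm_num)]
    linarith
  set b := Real.exp (2 * d.L + 1) with hb
  have hb1 : 1 ≤ b := Real.one_le_exp (by linarith)
  have hW : ∀ B : Finset S, Low Q (fun n => d.W B (ω n)) b := fun B =>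
    low_Poly hQ d.hθ d.hθJ hlevS ω hΛ B d.abs_aW d.aW_zero
  have hV : ∀ (B : Finset S) h, Low Q (fun n => d.V B h (ω n)) b := fun B h =>
    low_Poly hQ d.hθ d.hθJ hlevS ω hΛ _ d.abs_aV d.aV_zero
  have hΛ' : ∀ h, Low Q (fun n => d.Λ d.j₀ (ω n h)) b := fun h =>
    (hΛ d.j₀ h).mono (Real.exp_le_exp.mpr (by linarith [d.hlevL d.j₀]))
  have hU : ∀ B : Finset S, Low Q (fun n => d.U B (ω n)) (Fintype.card S * b ^ 4) := by
    intro B
    refine (Low.sum B fun h _ => ((hΛ' h).sq hQ).mul hQ ((hV B h).sq hQ)).mono ?_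
    rw [sum_const, nsmul_eq_mul]
    have : (B.card : ℝ) ≤ Fintype.card S := by exact_mod_cast card_le_univ B
    calc (B.card : ℝ) * (b ^ 2 * b ^ 2) ≤ Fintype.card S * (b ^ 2 * b ^ 2) := by gcongr
      _ = _ := by ring
  have havg : ∀ (f : κ → ℕ → ℝ) (B : ℝ), (∀ i, Low Q (f i) B) →
      Low Q (fun n => (∑ i ∈ I, f i n / d.K (A i)) / I.card) (2 * B) := by
    intro f B hf
    have hB := (hf hI.choose).nonneg
    have h1 := (Low.sum I fun i _ => (hf i).const_mul hQ (d.K (A i))⁻¹).const_mul hQ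
      (I.card : ℝ)⁻¹
    refine (h1.congr fun n => ?_).mono ?_
    · rw [div_eq_inv_mul]; congr 1; exact sum_congr rfl fun i _ => by rw [div_eq_inv_mul]
    · rw [abs_of_nonneg (by positivity), inv_mul_le_iff₀ hc]
      calc ∑ i ∈ I, |(d.K (A i))⁻¹| * B ≤ ∑ i ∈ I, 2 * B := by
            gcongr with i hi; exact hK i hi
        _ = _ := by rw [sum_const, nsmul_eq_mul]
  have h1 := (havg (fun i n => d.U (A i) (ω n)) _ (fun i => hU (A i))).const_mul hQ 2
  have h2 := (((havg (fun i n => d.W (A i) (ω n) ^ 2) _ (fun i => (hW (A i)).sq hQ)).sub hQ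
    (Low.const 1)).sq hQ).const_mul hQ 4
  refine (h1.add h2).mono ?_
  have e : Real.exp (8 * d.L + 4) = b ^ 4 := by
    rw [hb, ← Real.exp_nat_mul]; congr 1; push_cast; ring
  rw [e]
  have hb2 : 1 ≤ b ^ 2 := one_le_pow₀ hb1
  have : (2 * b ^ 2 + 1) ^ 2 ≤ 9 * b ^ 4 := by nlinarith
  simp only [abs_one, abs_two, show |(4 : ℝ)| = 4 from abs_of_pos (by norm_num)]
  nlinarith

end Dat

end Crest.Agent.PrimeGap
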