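import Mathlib
import Crest.Agent.PrimeGap.Block

/-! The one-particle functions: centred top scale times truncated sieve factors below. -/

set_option autoImplicit false
set_option linter.unusedSectionVars false

namespace Crest.Agent.PrimeGap

open Finset

noncomputable def ind (b : Bool) : ℝ := if b then 1 else 0

noncomputable def bern (q : ℝ) (b : Bool) : ℝ := if b then q else 1 - q

lemma ind_nonneg (b : Bool) : 0 ≤ ind b := by cases b <;> simp [ind]

lemma isProb_bern {q : ℝ} (h0 : 0 ≤ q) (h1 : q ≤ 1) : IsProb (bern q) where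
  nonneg b := by cases b <;> simp [bern, h0, h1]
  sum_one := by simp [bern]

lemma Ex_bern (q : ℝ) (F : Bool → ℝ) : Ex (bern q) F = q * F true + (1 - q) * F false := by
  simp [Ex, bern]

lemma one_add_sum_le_prod {ι : Type*} (s : Finset ι) {f : ι → ℝ} (hf : ∀ i, 0 ≤ f i) :
    1 + ∑ i ∈ s, f i ≤ ∏ i ∈ s, (1 + f i) := by
  classical
  induction s using Finset.induction_on with
  | empty => simp
  | insert a s ha ih =>
    rw [sum_insert ha, prod_insert ha]
    have h1 : 0 ≤ ∑ i ∈ s, f i := sum_nonneg fun i _ => hf i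
    have := hf a
    nlinarith

lemma exp_neg_two_mul_le_one_sub {x : ℝ} (h0 : 0 ≤ x) (h1 : x ≤ 1 / 2) :
    Real.exp (-(2 * x)) ≤ 1 - x := by
  have h := Real.add_one_le_exp (2 * x)
  rw [Real.exp_neg, inv_le_comm₀ (Real.exp_pos _) (by linarith)]
  refine le_trans ?_ h
  rw [inv_le_iff_one_le_mul₀ (by linarith)]
  nlinarith

lemma sum_sub_mul_two_pow (j : ℕ) :
    ∑ i ∈ range j, ((j - i : ℕ) : ℝ) * 2 ^ i + j + 2 = 2 * 2 ^ j := by
  induction j with
  | zero => simp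
  | succ j ih =>
    have e : ∑ i ∈ range (j + 1), ((j + 1 - i : ℕ) : ℝ) * 2 ^ i =
        ∑ i ∈ range (j + 1), ((j - i : ℕ) : ℝ) * 2 ^ i + ∑ i ∈ range (j + 1), (2 : ℝ) ^ i := by
      rw [← sum_add_distrib]
      refine sum_congr rfl fun i hi => ?_
      have : j + 1 - i = (j - i) + 1 := by have := mem_range.mp hi; omega
      rw [this]; push_cast; ring
    have e2 : ∑ i ∈ range (j + 1), (2 : ℝ) ^ i = 2 * 2 ^ j - 1 := by
      rw [geom_sum_eq (by norm_num)]; ring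
    rw [e, e2, sum_range_succ]
    simp only [Nat.sub_self, Nat.cast_zero, zero_mul, add_zero]
    push_cast
    rw [pow_succ]; linarith

lemma sum_half_pow_sub (j : ℕ) : ∑ i ∈ range j, (1 / 2 : ℝ) ^ (j - i) ≤ 1 := by
  induction j with
  | zero => simp
  | succ j ih =>
    rw [sum_range_succ]
    have e : ∑ i ∈ range j, (1 / 2 : ℝ) ^ (j + 1 - i) =
        1 / 2 * ∑ i ∈ range j, (1 / 2 : ℝ) ^ (j - i) := by
      rw [mul_sum]
      refine sum_congr rfl fun i hi => ?_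
      have : j + 1 - i = (j - i) + 1 := by have := mem_range.mp hi; omega
      rw [this, pow_succ]; ring
    rw [e]; simp only [Nat.add_sub_cancel_left, pow_one]; linarith

variable {ι : Type*} [Fintype ι] [DecidableEq ι]

/-- scale data -/
structure Sc (ι : Type*) [Fintype ι] where
  q : ι → ℝ
  sc : ι → ℕ
  μ₁ : ℝ
  hq0 : ∀ p, 0 ≤ q p
  hq1 : ∀ p, q p ≤ 1 / 2
  hμ₁ : ∀ i, ∑ p ∈ univ.filter (fun p => sc p = i), q p ≤ μ₁

namespace Sc
variable (s : Sc ι)

def P (i : ℕ) : Finset ι := univ.filter (fun p => s.sc p = i)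

noncomputable def μ : (ι → Bool) → ℝ := piW fun p => bern (s.q p)

noncomputable def ms (i : ℕ) : ℝ := ∑ p ∈ s.P i, s.q p

noncomputable def ρ (i : ℕ) : ℝ := ∏ p ∈ s.P i, (1 - s.q p)

noncomputable def beta (i k : ℕ) (x : ι → Bool) : ℝ :=
  ∑ r ∈ (s.P i).powerset.filter (fun r => r.card ≤ k), ∏ p ∈ r, (-ind (x p))

noncomputable def Tt (j : ℕ) (x : ι → Bool) : ℝ := 1 - (∑ p ∈ s.P j, ind (x p)) / s.ms j

noncomputable def Lam (j : ℕ) (x : ι → Bool) : ℝ :=
  s.Tt j x * ∏ i ∈ range j, s.beta i (j - i) x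

noncomputable def G3 (i : ℕ) (x : ι → Bool) : ℝ := ∏ p ∈ s.P i, (1 + 2 * ind (x p))

noncomputable def Z (i : ℕ) (x : ι → Bool) : ℝ := ∏ p ∈ s.P i, (1 - ind (x p))

lemma probs (p : ι) : IsProb (bern (s.q p)) :=
  isProb_bern (s.hq0 p) ((s.hq1 p).trans (by norm_num))

lemma prob : IsProb s.μ := isProb_piW s.probs

lemma mem_P {i : ℕ} {p : ι} : p ∈ s.P i ↔ s.sc p = i := by simp [P]

lemma ms_nonneg (i : ℕ) : 0 ≤ s.ms i := sum_nonneg fun p _ => s.hq0 p

lemma ρ_nonneg (i : ℕ) : 0 ≤ s.ρ i :=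
  prod_nonneg fun p _ => by linarith [s.hq1 p]

lemma one_le_G3 (i : ℕ) (x : ι → Bool) : 1 ≤ s.G3 i x :=
  Finset.one_le_prod (fun p _ => by linarith [ind_nonneg (x p)])

lemma Z_nonneg (i : ℕ) (x : ι → Bool) : 0 ≤ s.Z i x :=
  prod_nonneg fun p _ => by cases x p <;> simp [ind]

lemma beta_eq (i k : ℕ) (x : ι → Bool) : s.beta i k x = s.Z i x -
    ∑ r ∈ (s.P i).powerset.filter (fun r => ¬ r.card ≤ k), ∏ p ∈ r, (-ind (x p)) := by
  have : s.Z i x = ∑ r ∈ (s.P i).powerset, ∏ p ∈ r, (-ind (x p)) := by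
    rw [Z, ← prod_one_add]; exact prod_congr rfl fun p _ => by ring
  rw [this, beta, ← sum_filter_add_sum_filter_not (s.P i).powerset (fun r => r.card ≤ k)]; ring

lemma beta_of_none (i k : ℕ) {x : ι → Bool} (hx : ∀ p ∈ s.P i, x p = false) :
    s.beta i k x = 1 ∧ s.Z i x = 1 := by
  have hZ : s.Z i x = 1 := prod_eq_one fun p hp => by simp [hx p hp, ind]
  refine ⟨?_, hZ⟩
  rw [beta_eq, hZ, sum_eq_zero, sub_zero]
  intro r hr
  simp only [mem_filter, mem_powerset, not_le] at hr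
  obtain ⟨p, hp⟩ : r.Nonempty := card_pos.mp (by omega)
  exact prod_eq_zero hp (by simp [hx p (hr.1 hp), ind])

lemma abs_beta_pow_le (i k : ℕ) {e : ℕ} (he1 : 1 ≤ e) (he4 : e ≤ 4) (x : ι → Bool) :
    |s.beta i k x| ^ e ≤ s.Z i x + (1 / 2) ^ k * s.G3 i x ^ 4 := by
  have hG := s.one_le_G3 i x
  by_cases hx : ∀ p ∈ s.P i, x p = false
  · obtain ⟨h1, h2⟩ := s.beta_of_none i k hx
    rw [h1, h2, abs_one, one_pow]
    have : (0 : ℝ) ≤ (1 / 2) ^ k * s.G3 i x ^ 4 := by positivity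
    linarith
  · push Not at hx
    obtain ⟨p, hp, hxp⟩ := hx
    have hZ : s.Z i x = 0 := prod_eq_zero hp (by simp [ind, hxp])
    have h1 : |s.beta i k x| ≤ (1 / 2) ^ k * s.G3 i x := by
      rw [beta_eq, hZ, zero_sub, abs_neg]
      calc _ ≤ ∑ r ∈ (s.P i).powerset.filter (fun r => ¬ r.card ≤ k), |∏ p ∈ r, (-ind (x p))| :=
            abs_sum_le_sum_abs _ _
        _ ≤ ∑ r ∈ (s.P i).powerset.filter (fun r => ¬ r.card ≤ k),
              (1 / 2) ^ k * ∏ p ∈ r, (2 * ind (x p)) := by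
            refine sum_le_sum fun r hr => ?_
            simp only [mem_filter, mem_powerset, not_le] at hr
            rw [abs_prod, prod_mul_distrib, prod_const]
            simp only [abs_neg, abs_of_nonneg (ind_nonneg _)]
            have h0 : 0 ≤ ∏ p ∈ r, ind (x p) := prod_nonneg fun _ _ => ind_nonneg _
            have h2 : (1 : ℝ) ≤ (1 / 2) ^ k * 2 ^ r.card := by
              rw [one_div, inv_pow, le_inv_mul_iff₀ (by positivity), mul_one]
              exact pow_le_pow_right₀ (by norm_num) hr.2.le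
            nlinarith
        _ ≤ ∑ r ∈ (s.P i).powerset, (1 / 2) ^ k * ∏ p ∈ r, (2 * ind (x p)) := by
            refine sum_le_sum_of_subset_of_nonneg (filter_subset _ _) fun r _ _ => ?_
            have : 0 ≤ ∏ p ∈ r, (2 * ind (x p)) :=
              prod_nonneg fun _ _ => by linarith [ind_nonneg (x ‹_›)]
            positivity
        _ = _ := by rw [← mul_sum, ← prod_one_add]; rfl
    rw [hZ, zero_add]
    calc |s.beta i k x| ^ e ≤ ((1 / 2) ^ k * s.G3 i x) ^ e := by gcongr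
      _ = ((1 / 2) ^ k) ^ e * s.G3 i x ^ e := mul_pow _ _ _
      _ ≤ ((1 / 2) ^ k) ^ 1 * s.G3 i x ^ 4 := by
          refine mul_le_mul ?_ (pow_le_pow_right₀ hG he4) (by positivity) (by positivity)
          exact pow_le_pow_of_le_one (by positivity) (pow_le_one₀ (by norm_num) (by norm_num)) he1
      _ = _ := by rw [pow_one]

lemma abs_Tt_pow_le {μ₀ : ℝ} (hμ₀ : 0 < μ₀) (j : ℕ) (hj : μ₀ ≤ s.ms j) {e : ℕ} (he4 : e ≤ 4)
    (x : ι → Bool) : |s.Tt j x| ^ e ≤ (1 + 1 / μ₀) ^ 4 * s.G3 j x ^ 4 := by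
  have hG := s.one_le_G3 j x
  have h0 : 0 ≤ ∑ p ∈ s.P j, ind (x p) := sum_nonneg fun _ _ => ind_nonneg _
  have h1 : ∑ p ∈ s.P j, ind (x p) ≤ s.G3 j x := by
    have := one_add_sum_le_prod (s.P j) (f := fun p => 2 * ind (x p))
      (fun p => by linarith [ind_nonneg (x p)])
    rw [← mul_sum] at this
    rw [G3]; linarith
  have h2 : |s.Tt j x| ≤ (1 + 1 / μ₀) * s.G3 j x := by
    have h3 : (∑ p ∈ s.P j, ind (x p)) / s.ms j ≤ 1 / μ₀ * s.G3 j x := by
      calc _ ≤ s.G3 j x / μ₀ := by gcongr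
        _ = _ := by ring
    have h4 : 0 ≤ (∑ p ∈ s.P j, ind (x p)) / s.ms j := div_nonneg h0 (s.ms_nonneg j)
    rw [Tt, abs_le]; constructor <;> nlinarith
  have h5 : 1 ≤ (1 + 1 / μ₀) * s.G3 j x := by
    have : 0 < 1 / μ₀ := by positivity
    nlinarith
  calc |s.Tt j x| ^ e ≤ ((1 + 1 / μ₀) * s.G3 j x) ^ e := by gcongr
    _ ≤ ((1 + 1 / μ₀) * s.G3 j x) ^ 4 := pow_le_pow_right₀ h5 he4
    _ = _ := mul_pow _ _ _

lemma Ex_Z (i : ℕ) : Ex s.μ (s.Z i) = s.ρ i := by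
  have := Ex_piW_prod_finset s.probs (s.P i) (fun _ b => 1 - ind b)
  simp only [Ex_bern] at this
  refine this.trans (prod_congr rfl fun p _ => by simp [ind])

lemma Ex_G (i : ℕ) : Ex s.μ (fun x => s.G3 i x ^ 4) ≤ Real.exp (80 * s.μ₁) := by
  have := Ex_piW_prod_finset s.probs (s.P i) (fun _ b => (1 + 2 * ind b) ^ 4)
  simp only [Ex_bern, prod_pow] at this
  refine this.le.trans ?_
  calc _ = ∏ p ∈ s.P i, (1 + 80 * s.q p) := prod_congr rfl fun p _ => by simp [ind]; ring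
    _ ≤ Real.exp (∑ p ∈ s.P i, 80 * s.q p) :=
        Real.prod_one_add_le_exp_sum _ (fun p => by linarith [s.hq0 p])
    _ ≤ _ := by
        apply Real.exp_le_exp.mpr
        rw [← mul_sum]; have := s.hμ₁ i; rw [P]; linarith

lemma exp_le_ρ (i : ℕ) : Real.exp (-(2 * s.μ₁)) ≤ s.ρ i := by
  calc Real.exp (-(2 * s.μ₁)) ≤ Real.exp (∑ p ∈ s.P i, -(2 * s.q p)) := by
        apply Real.exp_le_exp.mpr
        rw [sum_neg_distrib, ← mul_sum]; have := s.hμ₁ i; rw [P]; linarith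
    _ = ∏ p ∈ s.P i, Real.exp (-(2 * s.q p)) := Real.exp_sum _ _
    _ ≤ _ := prod_le_prod (fun _ _ => (Real.exp_pos _).le)
        fun p _ => exp_neg_two_mul_le_one_sub (s.hq0 p) (s.hq1 p)

lemma dep_beta (i k : ℕ) : DependsOn (s.beta i k) {p | s.sc p = i} := by
  intro a b hab
  refine sum_congr rfl fun r hr => prod_congr rfl fun p hp => ?_
  simp only [mem_filter, mem_powerset] at hr
  rw [hab p (s.mem_P.mp (hr.1 hp))]

lemma dep_Tt (j : ℕ) : DependsOn (s.Tt j) {p | s.sc p = j} := by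
  intro a b hab
  unfold Tt
  congr 2
  exact sum_congr rfl fun p hp => by rw [hab p (s.mem_P.mp hp)]

lemma dep_G3 (j : ℕ) : DependsOn (s.G3 j) {p | s.sc p = j} := by
  intro a b hab
  exact prod_congr rfl fun p hp => by rw [hab p (s.mem_P.mp hp)]

lemma dep_Z (j : ℕ) : DependsOn (s.Z j) {p | s.sc p = j} := by
  intro a b hab
  exact prod_congr rfl fun p hp => by rw [hab p (s.mem_P.mp hp)]

lemma dep_betas (j : ℕ) :
    DependsOn (fun x => ∏ i ∈ range j, s.beta i (j - i) x) {p | s.sc p < j} :=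
  dependsOn_prod _ fun i hi => (s.dep_beta i _).mono fun p hp => by
    have := mem_range.mp hi
    simp only [Set.mem_ofPred_eq] at hp ⊢; omega

lemma dep_Lam (j : ℕ) : DependsOn (s.Lam j) {p | s.sc p ≤ j} := by
  intro a b hab
  have h1 := s.dep_Tt j (x := a) (y := b) fun p hp => hab p (le_of_eq hp)
  have h2 := s.dep_betas j (x := a) (y := b) fun p hp => hab p (le_of_lt (show s.sc p < j from hp))
  simp only at h2
  simp only [Lam, h1, h2]

lemma Ex_Tt {j : ℕ} (hj : 0 < s.ms j) : Ex s.μ (s.Tt j) = 0 := by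
  have e : Ex s.μ (fun x => ∑ p ∈ s.P j, ind (x p)) = s.ms j := by
    rw [Ex_sum]
    refine sum_congr rfl fun p _ => ?_
    rw [μ, Ex_piW_coord s.probs p ind, Ex_bern]; simp [ind]
  unfold Tt
  rw [Ex_sub, Ex_div_const, e, s.prob.Ex_const, div_self hj.ne', sub_self]

lemma Ex_Tt_mul {j : ℕ} (hj : 0 < s.ms j) {F : (ι → Bool) → ℝ} (hF : DependsOn F {p | s.sc p < j}) :
    Ex s.μ (fun x => s.Tt j x * F x) = 0 := by
  rw [μ, Ex_mul_of_dependsOn s.probs (s.dep_Tt j) hF]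
  · have := s.Ex_Tt hj; rw [μ] at this; rw [this, zero_mul]
  · rw [Set.disjoint_left]; intro p h1 h2
    simp only [Set.mem_ofPred_eq] at h1 h2; omega

lemma Ex_Lam {j : ℕ} (hj : 0 < s.ms j) : Ex s.μ (s.Lam j) = 0 :=
  s.Ex_Tt_mul hj (s.dep_betas j)

lemma Ex_Lam_mul {i j : ℕ} (hij : i < j) (hj : 0 < s.ms j) :
    Ex s.μ (fun x => s.Lam i x * s.Lam j x) = 0 := by
  have : (fun x => s.Lam i x * s.Lam j x) =
      fun x => s.Tt j x * (s.Lam i x * ∏ i ∈ range j, s.beta i (j - i) x) := by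
    ext x; rw [Lam, Lam]; ring
  rw [this]
  refine s.Ex_Tt_mul hj fun a b hab => ?_
  have h1 := s.dep_Lam i (x := a) (y := b) fun p hp => hab p (lt_of_le_of_lt hp hij)
  have h2 := s.dep_betas j (x := a) (y := b) hab
  simp only at h2
  simp only [h1, h2]

lemma Lam_of_none (j : ℕ) {x : ι → Bool} (hx : ∀ p, x p = false) : s.Lam j x = 1 := by
  rw [Lam, prod_eq_one fun i _ => (s.beta_of_none i _ fun p _ => hx p).1]
  simp [Tt, hx, ind]

/-- the absolute constant in the moment bound -/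
noncomputable def Cst (μ₀ μ₁ : ℝ) : ℝ :=
  (1 + 1 / μ₀) ^ 4 * Real.exp (80 * μ₁) * Real.exp (Real.exp (82 * μ₁))

lemma Ex_abs_Lam_pow {μ₀ : ℝ} (hμ₀ : 0 < μ₀) (j : ℕ) (hj : μ₀ ≤ s.ms j) {e : ℕ} (he1 : 1 ≤ e)
    (he4 : e ≤ 4) : Ex s.μ (fun x => |s.Lam j x| ^ e) ≤ Cst μ₀ s.μ₁ * ∏ i ∈ range j, s.ρ i := by
  have h1 : ∀ x, |s.Lam j x| ^ e ≤ ((1 + 1 / μ₀) ^ 4 * s.G3 j x ^ 4) *
      ∏ i ∈ range j, (s.Z i x + (1 / 2) ^ (j - i) * s.G3 i x ^ 4) := by
    intro x
    rw [Lam, abs_mul, mul_pow, abs_prod, ← prod_pow]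
    refine mul_le_mul (s.abs_Tt_pow_le hμ₀ j hj he4 x) ?_ (prod_nonneg fun _ _ => by positivity)
      (by positivity)
    exact prod_le_prod (fun _ _ => by positivity) fun i _ => s.abs_beta_pow_le i _ he1 he4 x
  refine (s.prob.Ex_mono h1).trans ?_
  have hd : ∀ i, DependsOn (fun x => s.Z i x + (1 / 2) ^ (j - i) * s.G3 i x ^ 4)
      {p | s.sc p = i} := by
    intro i a b hab
    simp only [s.dep_Z i hab, s.dep_G3 i hab]
  rw [μ, Ex_mul_of_dependsOn s.probs (s := {p | s.sc p = j}) (t := {p | s.sc p < j}),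
    Ex_prod_of_dependsOn s.probs (range j) _ (fun i => {p | s.sc p = i}) (fun i _ => hd i)]
  · have h2 : ∀ i, Ex s.μ (fun x => s.Z i x + (1 / 2) ^ (j - i) * s.G3 i x ^ 4) ≤
        s.ρ i * Real.exp ((1 / 2) ^ (j - i) * Real.exp (82 * s.μ₁)) := by
      intro i
      rw [Ex_add, Ex_const_mul, s.Ex_Z]
      have h3 := s.Ex_G i
      have h4 := s.exp_le_ρ i
      have h5 : Real.exp (80 * s.μ₁) ≤ s.ρ i * Real.exp (82 * s.μ₁) := by
        calc Real.exp (80 * s.μ₁) = Real.exp (-(2 * s.μ₁)) * Real.exp (82 * s.μ₁) := by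
              rw [← Real.exp_add]; congr 1; ring
          _ ≤ _ := by gcongr
      have h6 := Real.add_one_le_exp ((1 / 2) ^ (j - i) * Real.exp (82 * s.μ₁))
      have h7 := s.ρ_nonneg i
      calc s.ρ i + (1 / 2) ^ (j - i) * Ex s.μ (fun x => s.G3 i x ^ 4)
          ≤ s.ρ i + (1 / 2) ^ (j - i) * (s.ρ i * Real.exp (82 * s.μ₁)) := by
            gcongr; exact h3.trans h5
        _ = s.ρ i * ((1 / 2) ^ (j - i) * Real.exp (82 * s.μ₁) + 1) := by ring
        _ ≤ _ := by gcongr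
    have h8 : ∏ i ∈ range j, Ex s.μ (fun x => s.Z i x + (1 / 2) ^ (j - i) * s.G3 i x ^ 4) ≤
        (∏ i ∈ range j, s.ρ i) * Real.exp (Real.exp (82 * s.μ₁)) := by
      calc _ ≤ ∏ i ∈ range j, s.ρ i * Real.exp ((1 / 2) ^ (j - i) * Real.exp (82 * s.μ₁)) := by
            refine prod_le_prod (fun i _ => s.prob.Ex_nonneg fun x => ?_) fun i _ => h2 i
            have := s.Z_nonneg i x; positivity
        _ = (∏ i ∈ range j, s.ρ i) *
              Real.exp ((∑ i ∈ range j, (1 / 2) ^ (j - i)) * Real.exp (82 * s.μ₁)) := by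
            rw [prod_mul_distrib, ← Real.exp_sum, sum_mul]
        _ ≤ _ := by
            have : 0 ≤ ∏ i ∈ range j, s.ρ i := prod_nonneg fun i _ => s.ρ_nonneg i
            gcongr
            exact mul_le_of_le_one_left (Real.exp_pos _).le (sum_half_pow_sub j)
    rw [Ex_const_mul]
    have h9 := s.Ex_G j
    rw [μ] at h8 h9
    have h10 : 0 ≤ ∏ i ∈ range j, Ex (piW fun p => bern (s.q p))
        (fun x => s.Z i x + (1 / 2) ^ (j - i) * s.G3 i x ^ 4) :=
      prod_nonneg fun i _ => s.prob.Ex_nonneg fun x => by have := s.Z_nonneg i x; positivity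
    calc _ ≤ (1 + 1 / μ₀) ^ 4 * Real.exp (80 * s.μ₁) *
          ((∏ i ∈ range j, s.ρ i) * Real.exp (Real.exp (82 * s.μ₁))) := by gcongr
      _ = _ := by rw [Cst]; ring
  · intro k _ l _ hkl
    rw [Set.disjoint_left]; intro p h1 h2
    simp only [Set.mem_ofPred_eq] at h1 h2; omega
  · intro a b hab; simp only [s.dep_G3 j hab]
  · refine dependsOn_prod _ fun i hi => (hd i).mono fun p hp => ?_
    have := mem_range.mp hi
    simp only [Set.mem_ofPred_eq] at hp ⊢; omega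
  · rw [Set.disjoint_left]; intro p h1 h2
    simp only [Set.mem_ofPred_eq] at h1 h2; omega

lemma Ex_Lam_sq {μ₀ : ℝ} (hμ₀ : 0 < μ₀) (j : ℕ) (hj : μ₀ ≤ s.ms j) :
    Ex s.μ (fun x => s.Lam j x ^ 2) ≤ Cst μ₀ s.μ₁ * ∏ i ∈ range j, s.ρ i := by
  have := s.Ex_abs_Lam_pow hμ₀ j hj (e := 2) (by norm_num) (by norm_num)
  simpa only [sq_abs] using this

lemma Ex_Lam_four {μ₀ : ℝ} (hμ₀ : 0 < μ₀) (j : ℕ) (hj : μ₀ ≤ s.ms j) :
    Ex s.μ (fun x => (1 + |s.Lam j x|) ^ 4) ≤ 1 + 15 * (Cst μ₀ s.μ₁ * ∏ i ∈ range j, s.ρ i) := by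
  have h1 := s.Ex_abs_Lam_pow hμ₀ j hj (e := 1) (by norm_num) (by norm_num)
  have h2 := s.Ex_abs_Lam_pow hμ₀ j hj (e := 2) (by norm_num) (by norm_num)
  have h3 := s.Ex_abs_Lam_pow hμ₀ j hj (e := 3) (by norm_num) (by norm_num)
  have h4 := s.Ex_abs_Lam_pow hμ₀ j hj (e := 4) (by norm_num) (by norm_num)
  have e : (fun x => (1 + |s.Lam j x|) ^ 4) = fun x => (((1 + 4 * |s.Lam j x| ^ 1) +
      6 * |s.Lam j x| ^ 2) + 4 * |s.Lam j x| ^ 3) + |s.Lam j x| ^ 4 := by ext x; ring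
  rw [e, Ex_add, Ex_add, Ex_add, Ex_add, Ex_const_mul, Ex_const_mul, Ex_const_mul, s.prob.Ex_const]
  linarith

lemma low_Lam {Q : ℕ} (hQ : 0 < Q) (val : ι → ℝ) {u₀ μ₀ : ℝ} (hu₀ : 1 ≤ u₀) (hμ₀ : 0 < μ₀)
    (hu₁ : 1 + 1 / μ₀ ≤ Real.exp u₀) (hval : ∀ p, val p ≤ Real.exp (2 ^ s.sc p * u₀))
    (hcard : ∀ i, ((s.P i).card : ℝ) ≤ Real.exp (2 ^ i * u₀)) (x : ℕ → ι → Bool)
    (hx : ∀ p, Low Q (fun n => ind (x n p)) (val p)) (j : ℕ) (hj : μ₀ ≤ s.ms j) :
    Low Q (fun n => s.Lam j (x n)) (Real.exp (9 * (2 ^ j * u₀))) := by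
  have hval0 : ∀ p, 0 ≤ val p := fun p => (hx p).nonneg
  have hu : ∀ i : ℕ, u₀ ≤ 2 ^ i * u₀ := fun i =>
    le_mul_of_one_le_left (by linarith) (one_le_pow₀ (by norm_num))
  have hsum : ∀ i, ∑ p ∈ s.P i, val p ≤ Real.exp (2 * (2 ^ i * u₀)) := by
    intro i
    calc ∑ p ∈ s.P i, val p ≤ ∑ p ∈ s.P i, Real.exp (2 ^ i * u₀) :=
          sum_le_sum fun p hp => by have := hval p; rwa [s.mem_P.mp hp] at this
      _ = (s.P i).card * Real.exp (2 ^ i * u₀) := by rw [sum_const, nsmul_eq_mul]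
      _ ≤ Real.exp (2 ^ i * u₀) * Real.exp (2 ^ i * u₀) := by gcongr; exact hcard i
      _ = _ := by rw [← Real.exp_add]; congr 1; ring
  have hT : Low Q (fun n => s.Tt j (x n)) (Real.exp (3 * (2 ^ j * u₀))) := by
    have h1 := (Low.const (Q := Q) 1).sub hQ
      ((Low.sum (s.P j) fun p _ => hx p).const_mul hQ (s.ms j)⁻¹)
    refine (h1.congr fun n => by rw [Tt, div_eq_inv_mul]).mono ?_
    have h2 : |(s.ms j)⁻¹| ≤ 1 / μ₀ := by
      rw [abs_of_nonneg (inv_nonneg.mpr (s.ms_nonneg j)), one_div]; gcongr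
    have h3 : 1 ≤ Real.exp (2 * (2 ^ j * u₀)) := Real.one_le_exp (by linarith [hu j])
    have h4 : 0 ≤ ∑ p ∈ s.P j, val p := sum_nonneg fun p _ => hval0 p
    calc |1| + |(s.ms j)⁻¹| * ∑ p ∈ s.P j, val p
        ≤ Real.exp (2 * (2 ^ j * u₀)) + 1 / μ₀ * Real.exp (2 * (2 ^ j * u₀)) := by
          rw [abs_one]; gcongr; exact hsum j
      _ = (1 + 1 / μ₀) * Real.exp (2 * (2 ^ j * u₀)) := by ring
      _ ≤ Real.exp (2 ^ j * u₀) * Real.exp (2 * (2 ^ j * u₀)) := by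
          gcongr; exact hu₁.trans (Real.exp_le_exp.mpr (hu j))
      _ = _ := by rw [← Real.exp_add]; congr 1; ring
  have hB : ∀ i k, 1 ≤ k → Low Q (fun n => s.beta i k (x n)) (Real.exp (3 * (k * (2 ^ i * u₀)))) := by
    intro i k hk
    have h1 := Low.sum ((s.P i).powerset.filter (fun r => r.card ≤ k)) fun r _ =>
      Low.prod hQ r fun p _ => (hx p).const_mul hQ (-1)
    refine (h1.congr fun n => by simp [beta]).mono ?_
    set u := 2 ^ i * u₀ with hu'
    have hu1 : 1 ≤ u := hu₀.trans (hu i)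
    simp only [abs_neg, abs_one, one_mul]
    calc ∑ r ∈ (s.P i).powerset.filter (fun r => r.card ≤ k), ∏ p ∈ r, val p
        ≤ ∑ r ∈ (s.P i).powerset.filter (fun r => r.card ≤ k),
            Real.exp (2 * (k * u)) * ∏ p ∈ r, (Real.exp (-(2 * u)) * val p) := by
          refine sum_le_sum fun r hr => ?_
          simp only [mem_filter, mem_powerset] at hr
          rw [prod_mul_distrib, prod_const, ← mul_assoc, ← Real.exp_nat_mul, ← Real.exp_add]
          refine le_mul_of_one_le_left (prod_nonneg fun p _ => hval0 p) (Real.one_le_exp ?_)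
          have : (r.card : ℝ) ≤ k := by exact_mod_cast hr.2
          nlinarith
      _ ≤ ∑ r ∈ (s.P i).powerset,
            Real.exp (2 * (k * u)) * ∏ p ∈ r, (Real.exp (-(2 * u)) * val p) := by
          refine sum_le_sum_of_subset_of_nonneg (filter_subset _ _) fun r _ _ => ?_
          have : 0 ≤ ∏ p ∈ r, (Real.exp (-(2 * u)) * val p) :=
            prod_nonneg fun p _ => mul_nonneg (Real.exp_pos _).le (hval0 p)
          positivity
      _ = Real.exp (2 * (k * u)) * ∏ p ∈ s.P i, (1 + Real.exp (-(2 * u)) * val p) := by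
          rw [← mul_sum, ← prod_one_add]
      _ ≤ Real.exp (2 * (k * u)) * Real.exp (∑ p ∈ s.P i, Real.exp (-(2 * u)) * val p) := by
          gcongr
          exact Real.prod_one_add_le_exp_sum _ fun p => mul_nonneg (Real.exp_pos _).le (hval0 p)
      _ ≤ Real.exp (2 * (k * u)) * Real.exp (k * u) := by
          gcongr
          rw [← mul_sum]
          have hk' : (1 : ℝ) ≤ k := by exact_mod_cast hk
          calc Real.exp (-(2 * u)) * ∑ p ∈ s.P i, val p ≤ Real.exp (-(2 * u)) * Real.exp (2 * u) := by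
                gcongr; exact hsum i
            _ = 1 := by rw [← Real.exp_add]; simp
            _ ≤ k * u := by nlinarith
      _ = _ := by rw [← Real.exp_add]; congr 1; ring
  have h := hT.mul hQ (Low.prod hQ (range j) fun i hi =>
    hB i (j - i) (by have := mem_range.mp hi; omega))
  refine h.mono ?_
  rw [← Real.exp_sum, ← Real.exp_add]
  apply Real.exp_le_exp.mpr
  have e := sum_sub_mul_two_pow j
  have e2 : ∑ i ∈ range j, 3 * (((j - i : ℕ) : ℝ) * (2 ^ i * u₀)) =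
      3 * u₀ * ∑ i ∈ range j, ((j - i : ℕ) : ℝ) * 2 ^ i := by
    rw [mul_sum]; exact sum_congr rfl fun i _ => by ring
  rw [e2]
  have : ∑ i ∈ range j, ((j - i : ℕ) : ℝ) * 2 ^ i ≤ 2 * 2 ^ j := by
    have : (0 : ℝ) ≤ j := Nat.cast_nonneg _
    linarith
  nlinarith

end Sc

end Crest.Agent.PrimeGap
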