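import Mathlib
import Crest.Agent.PrimeGap.OneParticle

/-! From averages over an interval of integers to the independent model. -/

set_option autoImplicit false
set_option linter.unusedSectionVars false

namespace Crest.Agent.PrimeGap

open Finset

/-- residues modulo the members of a finite set -/
def res (A : Finset ℕ) (n : ℕ) : A → ℕ := fun p => n % (p : ℕ)

def resSet (A : Finset ℕ) : Finset (A → ℕ) := Fintype.piFinset fun p : A => range (p : ℕ)

lemma card_resSet (A : Finset ℕ) : (resSet A).card = ∏ p ∈ A, p := by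
  rw [resSet, Fintype.card_piFinset]
  simp only [card_range]
  exact prod_coe_sort A (fun p => p)

lemma res_mem {A : Finset ℕ} (hA : ∀ p ∈ A, Nat.Prime p) (n : ℕ) : res A n ∈ resSet A := by
  simp only [resSet, Fintype.mem_piFinset, mem_range, res]
  exact fun p => Nat.mod_lt _ (hA p p.2).pos

lemma crt_sum {A B : Finset ℕ} (hA : ∀ p ∈ A, Nat.Prime p) (hB : ∀ p ∈ B, Nat.Prime p)
    (hAB : Disjoint A B) (G : (A → ℕ) → (B → ℕ) → ℝ) :
    ∑ n ∈ range ((∏ p ∈ A, p) * ∏ p ∈ B, p), G (res A n) (res B n) =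
      ∑ a ∈ resSet A, ∑ b ∈ resSet B, G a b := by
  classical
  rw [← sum_product' (f := G)]
  have hinj : Set.InjOn (fun n => (res A n, res B n))
      (range ((∏ p ∈ A, p) * ∏ p ∈ B, p) : Set ℕ) := by
    intro n hn n' hn' h
    simp only [Prod.mk.injEq] at h
    have hmod : ∀ p ∈ A ∪ B, n ≡ n' [MOD p] := by
      intro p hp
      rcases mem_union.mp hp with hp | hp
      · exact congrFun h.1 ⟨p, hp⟩
      · exact congrFun h.2 ⟨p, hp⟩
    have hP : ∀ p ∈ A ∪ B, Nat.Prime p := by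
      intro p hp
      rcases mem_union.mp hp with hp | hp
      · exact hA p hp
      · exact hB p hp
    have hdvd : (∏ p ∈ A ∪ B, (p : ℤ)) ∣ (n' : ℤ) - n := by
      refine Finset.prod_dvd_of_coprime ?_ fun p hp => (hmod p hp).dvd
      intro p hp p' hp' hne
      exact Nat.isCoprime_iff_coprime.mpr ((Nat.coprime_primes (hP p hp) (hP p' hp')).mpr hne)
    rw [prod_union hAB] at hdvd
    have h2 : n ≡ n' [MOD (∏ p ∈ A, p) * ∏ p ∈ B, p] := by
      rw [Nat.modEq_iff_dvd]; push_cast; exact hdvd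
    simp only [coe_range, Set.mem_Iio] at hn hn'
    exact Nat.ModEq.eq_of_lt_of_lt h2 hn hn'
  have himg : (range ((∏ p ∈ A, p) * ∏ p ∈ B, p)).image (fun n => (res A n, res B n)) =
      resSet A ×ˢ resSet B := by
    apply eq_of_subset_of_card_le
    · intro z hz
      obtain ⟨n, _, rfl⟩ := mem_image.mp hz
      exact mem_product.mpr ⟨res_mem hA n, res_mem hB n⟩
    · rw [card_image_of_injOn hinj, card_product, card_resSet, card_resSet, card_range]
  rw [← himg, sum_image hinj]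

/-- success probability attached to the prime `p` -/
noncomputable def qq (M p : ℕ) : ℝ := 1 / ((p : ℝ) - M)

lemma fiber_bound {M p : ℕ} (hp : 2 * M < p) (u : Fin M → Bool) :
    (((range p).filter fun a => ∀ h : Fin M, decide (p ∣ a + (h + 1)) = u h).card : ℝ) ≤
      p * (((p : ℝ) - M) ^ 2 / (p * (p - 2 * M))) * ∏ h, bern (qq M p) (u h) := by
  have hp' : (2 * M : ℝ) + 1 ≤ p := by exact_mod_cast hp
  have hM : (0 : ℝ) ≤ M := Nat.cast_nonneg _
  have h1 : (0 : ℝ) < p - M := by linarith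
  have h2 : (0 : ℝ) < p - 2 * M := by linarith
  have h3 : (0 : ℝ) < p := by linarith
  have h2' : (p : ℝ) - M * 2 ≠ 0 := by linarith
  have hq0 : 0 ≤ qq M p := by unfold qq; positivity
  have hq1 : qq M p ≤ 1 := by unfold qq; rw [div_le_one h1]; linarith
  have hb : ((p : ℝ) - 2 * M) / (p - M) ≤ (1 - qq M p) ^ M := by
    have := one_add_mul_le_pow (a := -qq M p) (by linarith) M
    refine le_trans (le_of_eq ?_) this
    unfold qq; field_simp; ring
  have hbn : ∀ b, 0 ≤ bern (qq M p) b := (isProb_bern hq0 hq1).nonneg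
  by_cases hu : ∀ h, u h = false
  · have e : ∏ h, bern (qq M p) (u h) = (1 - qq M p) ^ M := by simp [hu, bern]
    have hc : ((range p).filter fun a => ∀ h : Fin M, decide (p ∣ a + (h + 1)) = u h) ⊆
        range (p - M) := by
      intro a ha
      simp only [mem_filter, mem_range, hu, decide_eq_false_iff_not] at ha ⊢
      by_contra hcon
      have := ha.2 ⟨p - a - 1, by omega⟩
      apply this
      have : a + (p - a - 1 + 1) = p := by omega
      simp only [this, dvd_refl]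
    have hc' := card_le_card hc
    rw [card_range] at hc'
    have hc'' : ((p - M : ℕ) : ℝ) = p - M := by rw [Nat.cast_sub (by omega)]
    rw [e]
    calc _ ≤ ((p - M : ℕ) : ℝ) := by exact_mod_cast hc'
      _ = p * (((p : ℝ) - M) ^ 2 / (p * (p - 2 * M))) * (((p : ℝ) - 2 * M) / (p - M)) := by
          rw [hc'']; field_simp
      _ ≤ _ := by gcongr
  · push Not at hu
    obtain ⟨h₀, hh₀⟩ := hu
    have hh₀' : u h₀ = true := by simpa using hh₀
    have key : ∀ a ∈ (range p).filter fun a => ∀ h : Fin M, decide (p ∣ a + (h + 1)) = u h,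
        a + (h₀ + 1) = p := by
      intro a ha
      simp only [mem_filter, mem_range] at ha
      have h5 := ha.2 h₀
      rw [hh₀', decide_eq_true_eq] at h5
      obtain ⟨k, hk⟩ := h5
      have := h₀.2
      rcases k with _ | _ | k
      · omega
      · omega
      · nlinarith
    rcases ((range p).filter fun a => ∀ h : Fin M,
      decide (p ∣ a + (h + 1)) = u h).eq_empty_or_nonempty with he | ⟨a, ha⟩
    · rw [he, card_empty, Nat.cast_zero]
      have : 0 ≤ ∏ h, bern (qq M p) (u h) := prod_nonneg fun _ _ => hbn _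
      positivity
    · have hc : (((range p).filter fun a => ∀ h : Fin M,
          decide (p ∣ a + (h + 1)) = u h).card) ≤ 1 := by
        rw [card_le_one]
        intro x hx y hy
        have := key x hx; have := key y hy; omega
      have hoth : ∀ h, h ≠ h₀ → u h = false := by
        intro h hh
        have h6 := key a ha
        simp only [mem_filter, mem_range] at ha
        rw [← ha.2 h, decide_eq_false_iff_not]
        rintro ⟨k, hk⟩
        have := h.2
        have : (h : ℕ) ≠ h₀ := fun e => hh (Fin.ext e)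
        rcases k with _ | _ | k
        · omega
        · omega
        · nlinarith
      have e : qq M p * (1 - qq M p) ^ M ≤ ∏ h, bern (qq M p) (u h) := by
        rw [← Finset.mul_prod_erase univ _ (mem_univ h₀), hh₀']
        have : ∏ x ∈ univ.erase h₀, bern (qq M p) (u x) = (1 - qq M p) ^ (M - 1) := by
          rw [prod_congr rfl (g := fun _ => 1 - qq M p)]
          · simp
          · intro x hx; rw [hoth x (ne_of_mem_erase hx)]; simp [bern]
        rw [this]
        simp only [bern, if_true]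
        gcongr ?_ * ?_
        exact pow_le_pow_of_le_one (by linarith) (by linarith) (by omega)
      calc _ ≤ (1 : ℝ) := by exact_mod_cast hc
        _ = p * (((p : ℝ) - M) ^ 2 / (p * (p - 2 * M))) *
              (qq M p * (((p : ℝ) - 2 * M) / (p - M))) := by unfold qq; field_simp
        _ ≤ p * (((p : ℝ) - M) ^ 2 / (p * (p - 2 * M))) * (qq M p * (1 - qq M p) ^ M) := by gcongr
        _ ≤ _ := by gcongr

/-- divisibility pattern of the shifts, from residues -/
def omr (M : ℕ) (B : Finset ℕ) (r : B → ℕ) : Fin M → B → Bool :=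
  fun h p => decide ((p : ℕ) ∣ r p + (h + 1))

/-- divisibility pattern of the shifts -/
def om (M : ℕ) (B : Finset ℕ) (n : ℕ) : Fin M → B → Bool :=
  fun h p => decide ((p : ℕ) ∣ n + (h + 1))

lemma om_eq (M : ℕ) (B : Finset ℕ) (n : ℕ) : om M B n = omr M B (res B n) := by
  ext h p
  simp only [om, omr, res]
  congr 1
  rw [Nat.dvd_iff_mod_eq_zero, Nat.dvd_iff_mod_eq_zero, Nat.mod_add_mod]

/-- the independent model -/
noncomputable def indW (M : ℕ) (B : Finset ℕ) : (Fin M → B → Bool) → ℝ :=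
  piW fun _ : Fin M => piW fun p : B => bern (qq M p)

lemma prod_c_le {M y : ℕ} (hM : 1 ≤ M) (hy : 4 * M ^ 2 ≤ y) {B : Finset ℕ} (hB : ∀ p ∈ B, y < p) :
    ∏ p ∈ B, (((p : ℝ) - M) ^ 2 / (p * (p - 2 * M))) ≤ 2 := by
  have hM' : (1 : ℝ) ≤ M := by exact_mod_cast hM
  have hy' : 4 * (M : ℝ) ^ 2 ≤ y := by exact_mod_cast hy
  have hy0 : y ≠ 0 := by intro h; rw [h] at hy; have : 0 < M ^ 2 := pow_pos hM 2; omega
  have hy0' : (0 : ℝ) < y := by exact_mod_cast Nat.pos_of_ne_zero hy0
  have h1 : ∀ p ∈ B, (((p : ℝ) - M) ^ 2 / (p * (p - 2 * M))) ≤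
      1 + 2 * (M : ℝ) ^ 2 * ((p : ℝ) ^ 2)⁻¹ := by
    intro p hp
    have : (y : ℝ) < p := by exact_mod_cast hB p hp
    have h4 : 4 * (M : ℝ) ≤ p := by nlinarith
    have h5 : (0 : ℝ) < p := by linarith
    have h6 : (0 : ℝ) < p - 2 * M := by linarith
    rw [div_le_iff₀ (by positivity)]
    have : (1 + 2 * (M : ℝ) ^ 2 * ((p : ℝ) ^ 2)⁻¹) * (p * (p - 2 * M)) =
        p * (p - 2 * M) + (M : ℝ) ^ 2 * (2 * (p - 2 * M) / p) := by field_simp
    rw [this]
    have : 1 ≤ 2 * ((p : ℝ) - 2 * M) / p := by rw [le_div_iff₀ h5]; linarith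
    nlinarith
  have h2 : ∑ p ∈ B, ((p : ℝ) ^ 2)⁻¹ ≤ (y : ℝ)⁻¹ := by
    have hsub : B ⊆ Ioc y (y + B.sup id) := by
      intro p hp
      have := hB p hp
      have h7 : p ≤ B.sup id := le_sup (f := id) hp
      simp only [mem_Ioc]; omega
    calc ∑ p ∈ B, ((p : ℝ) ^ 2)⁻¹ ≤ ∑ p ∈ Ioc y (y + B.sup id), ((p : ℝ) ^ 2)⁻¹ :=
          sum_le_sum_of_subset_of_nonneg hsub fun _ _ _ => by positivity
      _ ≤ (y : ℝ)⁻¹ - ((y + B.sup id : ℕ) : ℝ)⁻¹ := sum_Ioc_inv_sq_le_sub hy0 (by omega)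
      _ ≤ _ := by
          have : (0 : ℝ) ≤ ((y + B.sup id : ℕ) : ℝ)⁻¹ := by positivity
          linarith
  calc _ ≤ ∏ p ∈ B, (1 + 2 * (M : ℝ) ^ 2 * ((p : ℝ) ^ 2)⁻¹) := by
        refine prod_le_prod (fun p hp => ?_) h1
        have : (y : ℝ) < p := by exact_mod_cast hB p hp
        have h6 : (0 : ℝ) < p - 2 * M := by nlinarith
        positivity
    _ ≤ Real.exp (∑ p ∈ B, 2 * (M : ℝ) ^ 2 * ((p : ℝ) ^ 2)⁻¹) :=
        Real.prod_one_add_le_exp_sum _ fun p => by positivity
    _ ≤ Real.exp (1 / 2) := by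
        apply Real.exp_le_exp.mpr
        rw [← mul_sum]
        calc 2 * (M : ℝ) ^ 2 * ∑ p ∈ B, ((p : ℝ) ^ 2)⁻¹ ≤ 2 * (M : ℝ) ^ 2 * (y : ℝ)⁻¹ := by gcongr
          _ ≤ 1 / 2 := by rw [mul_inv_le_iff₀ hy0']; linarith
    _ ≤ 2 := by
        have h := Real.exp_one_lt_d9
        have : Real.exp (1 / 2) * Real.exp (1 / 2) = Real.exp 1 := by
          rw [← Real.exp_add]; norm_num
        nlinarith [Real.exp_pos (1 / 2)]

lemma excl_le {M y : ℕ} (hM : 1 ≤ M) (hy : 4 * M ^ 2 ≤ y) {B : Finset ℕ} (hB : ∀ p ∈ B, y < p)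
    {F : (Fin M → B → Bool) → ℝ} (hF : ∀ ω, 0 ≤ F ω) :
    ∑ r ∈ resSet B, F (omr M B r) ≤ (∏ p ∈ B, p : ℕ) * (2 * Ex (indW M B) F) := by
  classical
  have hp2 : ∀ p ∈ B, 2 * M < p := fun p hp => by have := hB p hp; nlinarith
  rw [← sum_fiberwise_of_maps_to (s := resSet B) (t := univ) (g := omr M B)
    (fun _ _ => mem_univ _), Ex, mul_sum, mul_sum]
  refine sum_le_sum fun ω _ => ?_
  have e1 : ∑ r ∈ resSet B with omr M B r = ω, F (omr M B r) =
      ((resSet B).filter fun r => omr M B r = ω).card * F ω := by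
    rw [sum_congr rfl (g := fun _ => F ω), sum_const, nsmul_eq_mul]
    intro r hr; rw [(mem_filter.mp hr).2]
  have e2 : ((resSet B).filter fun r => omr M B r = ω) = Fintype.piFinset fun p : B =>
      (range (p : ℕ)).filter fun a => ∀ h : Fin M, decide ((p : ℕ) ∣ a + (h + 1)) = ω h p := by
    ext r
    simp only [resSet, mem_filter, Fintype.mem_piFinset]
    constructor
    · rintro ⟨h1, h2⟩ p
      exact ⟨h1 p, fun h => by rw [← h2]; rfl⟩
    · intro h
      exact ⟨fun p => (h p).1, funext fun s => funext fun p => (h p).2 s⟩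
  rw [e1, e2, Fintype.card_piFinset, ← mul_assoc, ← mul_assoc]
  refine mul_le_mul_of_nonneg_right ?_ (hF ω)
  push_cast
  have hw : 0 ≤ indW M B ω := by
    unfold indW piW
    refine prod_nonneg fun h _ => prod_nonneg fun p _ => ?_
    have h3 : (2 * M : ℝ) + 1 ≤ (p : ℕ) := by exact_mod_cast hp2 p p.2
    have hM : (0 : ℝ) ≤ M := Nat.cast_nonneg _
    have h1 : (0 : ℝ) < (p : ℕ) - M := by linarith
    refine (isProb_bern (by unfold qq; positivity) ?_).nonneg _
    unfold qq; rw [div_le_one h1]; linarith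
  calc _ ≤ ∏ p : B, (((p : ℕ) : ℝ) * ((((p : ℕ) : ℝ) - M) ^ 2 / ((p : ℕ) * ((p : ℕ) - 2 * M))) *
          ∏ h, bern (qq M p) (ω h p) : ℝ) :=
        prod_le_prod (fun _ _ => Nat.cast_nonneg _) fun p _ => fiber_bound (hp2 p p.2) _
    _ = (∏ p ∈ B, (p : ℝ)) * (∏ p ∈ B, (((p : ℝ) - M) ^ 2 / (p * (p - 2 * M)))) * indW M B ω := by
        rw [prod_mul_distrib, prod_mul_distrib, prod_coe_sort B (fun p => (p : ℝ)),
          prod_coe_sort B (fun p => (((p : ℝ) - M) ^ 2 / (p * (p - 2 * M)))), prod_comm]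
        rfl
    _ ≤ (∏ p ∈ B, (p : ℝ)) * 2 * indW M B ω := by
        gcongr; exact prod_c_le hM hy hB

lemma low_ind_om {Q M : ℕ} {B : Finset ℕ} (hQ : ∀ p ∈ B, p ∣ Q) (h : Fin M) (p : B) :
    Low Q (fun n => ind (om M B n h p)) ((p : ℕ) : ℝ) := by
  have := Low.basic (Q := Q) (fun n => ind (om M B n h p)) p 1 (hQ p p.2) ?_ ?_
  · simpa using this
  · intro n
    simp only [om]
    congr 2
    rw [show n + (p : ℕ) + (h + 1) = n + (h + 1) + p by ring, Nat.dvd_add_self_right]
  · intro n; cases om M B n h p <;> simp [ind]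

theorem transfer {A B : Finset ℕ} (hA : ∀ p ∈ A, Nat.Prime p) (hB : ∀ p ∈ B, Nat.Prime p)
    (hAB : Disjoint A B) {M y : ℕ} (hM : 1 ≤ M) (hy : 4 * M ^ 2 ≤ y) (hBy : ∀ p ∈ B, y < p)
    (F : (A → ℕ) → (Fin M → B → Bool) → ℝ) (hF : ∀ b ω, 0 ≤ F b ω) {β : ℝ}
    (hlow : ∀ b, Low ((∏ p ∈ A, p) * ∏ p ∈ B, p) (fun n => F b (om M B n)) β) (X : ℕ) :
    ∑ n ∈ range X, F (res A n) (om M B n) ≤
      X * (2 * ((∑ b ∈ resSet A, Ex (indW M B) (F b)) / (∏ p ∈ A, p : ℕ))) +
        2 * (((∏ p ∈ A, p : ℕ) : ℝ) ^ 2 * β) := by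
  classical
  set P := ∏ p ∈ A, p with hP
  set R := ∏ p ∈ B, p with hR
  have hP0 : 0 < P := prod_pos fun p hp => (hA p hp).pos
  have hR0 : 0 < R := prod_pos fun p hp => (hB p hp).pos
  have hQ : 0 < P * R := Nat.mul_pos hP0 hR0
  have h1 : ∀ b, Low (P * R) (fun n => if res A n = b then (1 : ℝ) else 0) (1 * (P : ℕ)) := by
    intro b
    refine Low.basic _ P 1 (dvd_mul_right _ _) ?_ ?_
    · intro n
      have : res A (n + P) = res A n := by
        ext p
        obtain ⟨k, hk⟩ : (p : ℕ) ∣ P := dvd_prod_of_mem _ p.2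
        simp only [res]; rw [hk, Nat.add_mul_mod_self_left]
      simp only [this]
    · intro n; split_ifs <;> simp
  have h2 : Low (P * R) (fun n => F (res A n) (om M B n)) ((P : ℝ) ^ 2 * β) := by
    have := Low.sum (resSet A) fun b _ => (h1 b).mul hQ (hlow b)
    refine (this.congr fun n => ?_).mono (le_of_eq ?_)
    · simp only [ite_mul, one_mul, zero_mul]
      rw [sum_ite_eq]; simp [res_mem hA n]
    · rw [sum_const, card_resSet, nsmul_eq_mul]; ring
  have h3 := (abs_le.mp (h2.discrepancy hQ X)).2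
  have h4 : ∑ n ∈ range (P * R), F (res A n) (om M B n) ≤
      R * (2 * ∑ b ∈ resSet A, Ex (indW M B) (F b)) := by
    simp only [om_eq]
    rw [crt_sum hA hB hAB (fun a r => F a (omr M B r)), mul_sum, mul_sum]
    exact sum_le_sum fun b _ => excl_le hM hy hBy (hF b)
  have hP0' : (0 : ℝ) < P := by exact_mod_cast hP0
  have hR0' : (0 : ℝ) < R := by exact_mod_cast hR0
  have h5 : (X : ℝ) / (P * R : ℕ) * ∑ n ∈ range (P * R), F (res A n) (om M B n) ≤
      X * (2 * ((∑ b ∈ resSet A, Ex (indW M B) (F b)) / P)) := by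
    calc _ ≤ (X : ℝ) / (P * R : ℕ) * (R * (2 * ∑ b ∈ resSet A, Ex (indW M B) (F b))) := by gcongr
      _ = _ := by push_cast; field_simp
  linarith

end Crest.Agent.PrimeGap
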