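import Mathlib
import Crest.Agent.PrimeGap.Transfer

/-! Elementary estimates for sums and products over primes. -/

set_option autoImplicit false

namespace Crest.Agent.PrimeGap

open Finset

/-- primes in `(a, b]` -/
def primesIn (a b : ℕ) : Finset ℕ := (Ioc a b).filter Nat.Prime

lemma mem_primesIn {a b p : ℕ} : p ∈ primesIn a b ↔ (a < p ∧ p ≤ b) ∧ p.Prime := by
  simp [primesIn]

lemma primesIn_union {a b c : ℕ} (hab : a ≤ b) (hbc : b ≤ c) :
    primesIn a c = primesIn a b ∪ primesIn b c := by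
  ext p; simp only [mem_union, mem_primesIn]
  constructor
  · rintro ⟨⟨h1, h2⟩, h3⟩
    by_cases h : p ≤ b
    · exact Or.inl ⟨⟨h1, h⟩, h3⟩
    · exact Or.inr ⟨⟨by omega, h2⟩, h3⟩
  · rintro (⟨⟨h1, h2⟩, h3⟩ | ⟨⟨h1, h2⟩, h3⟩)
    · exact ⟨⟨h1, by omega⟩, h3⟩
    · exact ⟨⟨by omega, h2⟩, h3⟩

lemma primesIn_disjoint (a b c : ℕ) : Disjoint (primesIn a b) (primesIn b c) := by
  rw [disjoint_left]; intro p h1 h2
  rw [mem_primesIn] at h1 h2; omega

lemma sum_primesIn_split {a b c : ℕ} (hab : a ≤ b) (hbc : b ≤ c) (f : ℕ → ℝ) :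
    ∑ p ∈ primesIn a c, f p = ∑ p ∈ primesIn a b, f p + ∑ p ∈ primesIn b c, f p := by
  rw [primesIn_union hab hbc, sum_union (primesIn_disjoint _ _ _)]

lemma prod_primesIn_split {a b c : ℕ} (hab : a ≤ b) (hbc : b ≤ c) (f : ℕ → ℝ) :
    ∏ p ∈ primesIn a c, f p = (∏ p ∈ primesIn a b, f p) * ∏ p ∈ primesIn b c, f p := by
  rw [primesIn_union hab hbc, prod_union (primesIn_disjoint _ _ _)]

lemma theta_eq (n : ℕ) : Chebyshev.theta n = ∑ p ∈ primesIn 0 n, Real.log p := by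
  simp [Chebyshev.theta, primesIn]

lemma sum_inv_step_le {t : ℕ} (ht : 1 ≤ t) :
    ∑ p ∈ primesIn (4 ^ t) (4 ^ (t + 1)), (1 / (p : ℝ)) ≤ 4 / t := by
  have hl : 0 < Real.log 4 := Real.log_pos (by norm_num)
  have ht' : (0 : ℝ) < t := by exact_mod_cast ht
  have h1 := Chebyshev.theta_le_log4_mul_x (x := ((4 ^ (t + 1) : ℕ) : ℝ)) (by positivity)
  rw [theta_eq, sum_primesIn_split (Nat.zero_le (4 ^ t)) (Nat.pow_le_pow_right (by norm_num)
    (Nat.le_succ t))] at h1
  have h2 : 0 ≤ ∑ p ∈ primesIn 0 (4 ^ t), Real.log p :=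
    sum_nonneg fun p _ => Real.log_natCast_nonneg p
  calc ∑ p ∈ primesIn (4 ^ t) (4 ^ (t + 1)), (1 / (p : ℝ))
      ≤ ∑ p ∈ primesIn (4 ^ t) (4 ^ (t + 1)), Real.log p / (4 ^ t * (t * Real.log 4)) := by
        refine sum_le_sum fun p hp => ?_
        have h3 : ((4 ^ t : ℕ) : ℝ) ≤ p := by exact_mod_cast (mem_primesIn.mp hp).1.1.le
        push_cast at h3
        have h4 : t * Real.log 4 ≤ Real.log p := by
          rw [← Real.log_pow]; exact Real.log_le_log (by positivity) h3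
        rw [div_le_div_iff₀ (lt_of_lt_of_le (by positivity) h3) (by positivity), one_mul, mul_comm]
        exact mul_le_mul h4 h3 (by positivity) (Real.log_natCast_nonneg p)
    _ ≤ (Real.log 4 * 4 ^ (t + 1)) / (4 ^ t * (t * Real.log 4)) := by
        rw [← sum_div]; gcongr; push_cast at h1; linarith
    _ = 4 / t := by field_simp; ring

lemma sum_inv_step_ge {t : ℕ} (ht : 7 ≤ t) :
    1 / (8 * ((t : ℝ) + 1)) ≤ ∑ p ∈ primesIn (4 ^ t) (4 ^ (t + 1)), (1 / (p : ℝ)) := by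
  have hl : 0 < Real.log 2 := Real.log_pos (by norm_num)
  have hl4 : Real.log 4 = 2 * Real.log 2 := by
    rw [show (4 : ℝ) = 2 ^ 2 by norm_num, Real.log_pow]; norm_num
  have h1 := Chebyshev.theta_le_log4_mul_x (x := ((4 ^ t : ℕ) : ℝ)) (by positivity)
  have h2 := Chebyshev.theta_ge (4 ^ (t + 1))
  rw [theta_eq] at h1 h2
  rw [sum_primesIn_split (Nat.zero_le (4 ^ t)) (Nat.pow_le_pow_right (by norm_num)
    (Nat.le_succ t))] at h2
  have hs : (10 * t + 11 : ℝ) ≤ 2 ^ t := by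
    have : ∀ n : ℕ, 10 * (n + 7) + 11 ≤ 2 ^ (n + 7) := by
      intro n; induction n with
      | zero => norm_num
      | succ n ih => rw [show n + 1 + 7 = (n + 7) + 1 by ring, pow_succ]; omega
    have h := this (t - 7)
    rw [Nat.sub_add_cancel ht] at h
    exact_mod_cast h
  push_cast at h1 h2
  set s : ℝ := 2 ^ t with hsdef
  have e1 : (4 : ℝ) ^ t = s ^ 2 := by
    rw [hsdef, ← pow_mul, mul_comm, pow_mul]; norm_num
  have e2 : (4 : ℝ) ^ (t + 1) = (2 * s) ^ 2 := by rw [pow_succ, e1]; ring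
  have hs0 : 0 < s := by positivity
  have ht0 : (0 : ℝ) ≤ t := Nat.cast_nonneg _
  have e3 : Real.log (4 ^ (t + 1)) = (2 * (t + 1)) * Real.log 2 := by
    rw [Real.log_pow, hl4]; push_cast; ring
  have e4 : Real.log (4 ^ (t + 1) + 1) ≤ (2 * t + 3) * Real.log 2 := by
    have : (4 : ℝ) ^ (t + 1) + 1 ≤ 2 * 4 ^ (t + 1) := by
      have : (1 : ℝ) ≤ 4 ^ (t + 1) := one_le_pow₀ (by norm_num)
      linarith
    refine (Real.log_le_log (by positivity) this).trans (le_of_eq ?_)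
    rw [Real.log_mul (by norm_num) (by positivity), e3]; ring
  have e5 : √((4 : ℝ) ^ (t + 1)) = 2 * s := by rw [e2, Real.sqrt_sq (by positivity)]
  rw [e5, e3] at h2
  have h3 : s ^ 2 * Real.log 2 ≤ ∑ p ∈ primesIn (4 ^ t) (4 ^ (t + 1)), Real.log p := by
    rw [e1, hl4] at h1
    rw [e2] at h2 e4
    have hs1 : 1 ≤ s := by linarith
    have : (2 * t + 3) + 8 * (t + 1) * s ≤ s ^ 2 := by nlinarith
    nlinarith
  calc 1 / (8 * ((t : ℝ) + 1)) = (s ^ 2 * Real.log 2) / (4 ^ (t + 1) * Real.log (4 ^ (t + 1))) := by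
        rw [e3, e2]; field_simp; ring
    _ ≤ (∑ p ∈ primesIn (4 ^ t) (4 ^ (t + 1)), Real.log p) /
          (4 ^ (t + 1) * Real.log (4 ^ (t + 1))) := by
        gcongr; rw [e3]; positivity
    _ ≤ _ := by
        rw [sum_div]
        refine sum_le_sum fun p hp => ?_
        have hp' := mem_primesIn.mp hp
        have h4 : (p : ℝ) ≤ ((4 ^ (t + 1) : ℕ) : ℝ) := by exact_mod_cast hp'.1.2
        push_cast at h4
        have h5 : (0 : ℝ) < p := by exact_mod_cast hp'.2.pos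
        have h6 : Real.log p ≤ Real.log (4 ^ (t + 1)) := Real.log_le_log h5 h4
        rw [div_le_div_iff₀ (by rw [e3]; positivity) h5, one_mul, mul_comm]
        exact mul_le_mul h4 h6 (Real.log_natCast_nonneg p) (by positivity)

lemma sum_inv_le {m : ℕ} (hm : 1 ≤ m) (k : ℕ) :
    ∑ p ∈ primesIn (4 ^ m) (4 ^ (m + k)), (1 / (p : ℝ)) ≤ k * (4 / m) := by
  induction k with
  | zero => simp [primesIn]
  | succ k ih =>
    rw [sum_primesIn_split (b := 4 ^ (m + k)) (Nat.pow_le_pow_right (by norm_num) (by omega))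
      (Nat.pow_le_pow_right (by norm_num) (by omega))]
    have h1 := sum_inv_step_le (t := m + k) (by omega)
    have h2 : (4 : ℝ) / (m + k : ℕ) ≤ 4 / m := by
      have : (0 : ℝ) < m := by exact_mod_cast hm
      gcongr; omega
    rw [← add_assoc]
    push_cast at h1 h2 ⊢; linarith

lemma sum_inv_ge {m : ℕ} (hm : 7 ≤ m) (k : ℕ) (hk : k ≤ m) :
    k * (1 / (16 * (m : ℝ))) ≤ ∑ p ∈ primesIn (4 ^ m) (4 ^ (m + k)), (1 / (p : ℝ)) := by
  induction k with
  | zero => simp [primesIn]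
  | succ k ih =>
    rw [sum_primesIn_split (b := 4 ^ (m + k)) (Nat.pow_le_pow_right (by norm_num) (by omega))
      (Nat.pow_le_pow_right (by norm_num) (by omega))]
    have h1 := sum_inv_step_ge (t := m + k) (by omega)
    have h2 : 1 / (16 * (m : ℝ)) ≤ 1 / (8 * (((m + k : ℕ) : ℝ) + 1)) := by
      have : ((k + 1 : ℕ) : ℝ) ≤ m := by exact_mod_cast hk
      push_cast at this ⊢
      apply one_div_le_one_div_of_le (by positivity); linarith
    have := ih (by omega)
    rw [← add_assoc]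
    push_cast at h1 h2 ⊢; linarith

lemma sum_inv_sq_le {m : ℕ} (hm : 1 ≤ m) :
    ∑ p ∈ primesIn (4 ^ m) (4 ^ (2 * m)), (1 / (p : ℝ)) ≤ 4 := by
  have := sum_inv_le hm m
  have h0 : (0 : ℝ) < m := by exact_mod_cast hm
  rw [← two_mul, mul_div_cancel₀ _ h0.ne'] at this; exact this

lemma sum_inv_sq_ge {m : ℕ} (hm : 7 ≤ m) :
    1 / 16 ≤ ∑ p ∈ primesIn (4 ^ m) (4 ^ (2 * m)), (1 / (p : ℝ)) := by
  have := sum_inv_ge hm m le_rfl
  have h0 : (0 : ℝ) < m := by exact_mod_cast (by omega : 0 < m)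
  rw [← two_mul] at this
  refine le_trans (le_of_eq ?_) this
  field_simp

lemma rho_le {y : ℕ} (hy : 1 ≤ y) :
    ∏ p ∈ primesIn 0 y, (1 - 1 / (p : ℝ)) ≤ 1 / Real.log (y + 1) := by
  let f : ℕ →* ℝ :=
    { toFun := fun n => (n : ℝ)⁻¹
      map_one' := by simp
      map_mul' := fun a b => by push_cast; rw [mul_inv] }
  have hf : ∀ {p : ℕ}, p.Prime → ‖f p‖ < 1 := by
    intro p hp
    have : (1 : ℝ) < p := by exact_mod_cast hp.one_lt
    simp only [f, MonoidHom.coe_mk, OneHom.coe_mk, norm_inv, Real.norm_natCast]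
    exact inv_lt_one_of_one_lt₀ this
  have h := (EulerProduct.summable_and_hasSum_smoothNumbers_prod_primesBelow_geometric hf (y + 1)).2
  have e : (y + 1).primesBelow = primesIn 0 y := by
    ext p; simp only [Nat.mem_primesBelow, mem_primesIn]
    constructor
    · rintro ⟨h1, h2⟩; exact ⟨⟨h2.pos, by omega⟩, h2⟩
    · rintro ⟨h1, h2⟩; exact ⟨by omega, h2⟩
  rw [e] at h
  have h' := hasSum_subtype_iff_indicator.mp h
  have h2 := sum_le_hasSum (Icc 1 y) (fun n _ => by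
    exact Set.indicator_nonneg (fun n _ => by simp [f]) n) h'
  have h3 : ∑ n ∈ Icc 1 y, ((y + 1).smoothNumbers).indicator f n = harmonic y := by
    rw [harmonic_eq_sum_Icc]; push_cast
    refine sum_congr rfl fun n hn => ?_
    have := mem_Icc.mp hn
    rw [Set.indicator_of_mem (Nat.mem_smoothNumbers_of_lt (by omega) (by omega))]; rfl
  have h4 := log_add_one_le_harmonic y
  have h5 : 0 < Real.log (y + 1) := Real.log_pos (by
    have : (1 : ℝ) ≤ y := by exact_mod_cast hy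
    linarith)
  rw [h3, prod_inv_distrib] at h2
  push_cast at h4
  have h6 : 0 < ∏ p ∈ primesIn 0 y, (1 - 1 / (p : ℝ)) := prod_pos fun p hp => by
    have : (1 : ℝ) < p := by exact_mod_cast (mem_primesIn.mp hp).2.one_lt
    rw [sub_pos, div_lt_one (by linarith)]; exact this
  have e2 : ∏ p ∈ primesIn 0 y, (1 - f p) = ∏ p ∈ primesIn 0 y, (1 - 1 / (p : ℝ)) :=
    prod_congr rfl fun p _ => by simp [f]
  rw [e2] at h2
  rw [le_div_iff₀ h5]
  calc _ ≤ (∏ p ∈ primesIn 0 y, (1 - 1 / (p : ℝ))) * (∏ p ∈ primesIn 0 y, (1 - 1 / (p : ℝ)))⁻¹ := by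
        gcongr; exact h4.trans h2
    _ = 1 := mul_inv_cancel₀ h6.ne'

lemma exp_le_prod_one_sub (a b : ℕ) :
    Real.exp (-(2 * ∑ p ∈ primesIn a b, 1 / (p : ℝ))) ≤ ∏ p ∈ primesIn a b, (1 - 1 / (p : ℝ)) := by
  rw [mul_sum, ← sum_neg_distrib, Real.exp_sum]
  refine prod_le_prod (fun _ _ => (Real.exp_pos _).le) fun p hp => ?_
  have : (2 : ℝ) ≤ p := by exact_mod_cast (mem_primesIn.mp hp).2.two_le
  exact exp_neg_two_mul_le_one_sub (by positivity) (one_div_le_one_div_of_le (by norm_num) this)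

/-- the singular-series factor -/
noncomputable def sing (A : Finset ℕ) (k : ℕ) : ℝ :=
  ∏ p ∈ A, (1 + if p ∣ k then 1 / ((p : ℝ) - 1) else 0)

lemma sing_nonneg {A : Finset ℕ} (hA : ∀ p ∈ A, Nat.Prime p) (k : ℕ) : 0 ≤ sing A k :=
  prod_nonneg fun p hp => by
    have : (2 : ℝ) ≤ p := by exact_mod_cast (hA p hp).two_le
    have : 0 < (p : ℝ) - 1 := by linarith
    split_ifs <;> positivity

lemma sum_inv_mul_pred_le {A : Finset ℕ} (hA : ∀ p ∈ A, Nat.Prime p) :
    ∑ p ∈ A, 1 / ((p : ℝ) - 1) * (1 / p) ≤ 1 := by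
  have h1 : ∀ n : ℕ, ∑ p ∈ Icc 2 (n + 1), 1 / ((p : ℝ) - 1) * (1 / p) = 1 - 1 / (n + 1) := by
    intro n; induction n with
    | zero => simp
    | succ n ih =>
      rw [sum_Icc_succ_top (by omega), ih]; push_cast
      have : (n : ℝ) + 1 + 1 - 1 = n + 1 := by ring
      rw [this]; field_simp; ring
  calc ∑ p ∈ A, 1 / ((p : ℝ) - 1) * (1 / p)
      ≤ ∑ p ∈ Icc 2 (A.sup id + 1), 1 / ((p : ℝ) - 1) * (1 / p) := by
        refine sum_le_sum_of_subset_of_nonneg (fun p hp => ?_) fun p hp _ => ?_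
        · have h7 : p ≤ A.sup id := le_sup (f := id) hp
          exact mem_Icc.mpr ⟨(hA p hp).two_le, by omega⟩
        · have : (2 : ℝ) ≤ p := by exact_mod_cast (mem_Icc.mp hp).1
          have : 0 < (p : ℝ) - 1 := by linarith
          positivity
    _ ≤ 1 := by
        rw [h1]
        have : (0 : ℝ) ≤ 1 / ((A.sup id : ℕ) + 1) := by positivity
        linarith

lemma sum_sing_le {A : Finset ℕ} (hA : ∀ p ∈ A, Nat.Prime p) (M : ℕ) :
    ∑ k ∈ Ioc 0 M, sing A k ≤ 3 * M := by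
  have hg : ∀ p ∈ A, 0 ≤ 1 / ((p : ℝ) - 1) := fun p hp => by
    have : (2 : ℝ) ≤ p := by exact_mod_cast (hA p hp).two_le
    have : 0 < (p : ℝ) - 1 := by linarith
    positivity
  simp only [sing, prod_one_add]
  rw [sum_comm]
  calc ∑ r ∈ A.powerset, ∑ k ∈ Ioc 0 M, ∏ p ∈ r, (if p ∣ k then 1 / ((p : ℝ) - 1) else 0)
      ≤ ∑ r ∈ A.powerset, M * ∏ p ∈ r, (1 / ((p : ℝ) - 1) * (1 / p)) := by
        refine sum_le_sum fun r hr => ?_
        have hr' := mem_powerset.mp hr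
        have e : ∀ k, ∏ p ∈ r, (if p ∣ k then 1 / ((p : ℝ) - 1) else 0) =
            if (∏ p ∈ r, p) ∣ k then ∏ p ∈ r, 1 / ((p : ℝ) - 1) else 0 := by
          intro k
          split_ifs with h
          · exact prod_congr rfl fun p hp => if_pos ((dvd_prod_of_mem _ hp).trans h)
          · by_contra hne
            apply h
            refine Finset.prod_primes_dvd k (fun p hp => (hA p (hr' hp)).prime) fun p hp => ?_
            by_contra hpk
            exact hne (prod_eq_zero hp (if_neg hpk))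
        simp only [e]
        rw [← sum_filter, sum_const, Nat.Ioc_filter_dvd_card_eq_div, nsmul_eq_mul,
          prod_mul_distrib, mul_comm (∏ p ∈ r, 1 / ((p : ℝ) - 1)), ← mul_assoc]
        refine mul_le_mul_of_nonneg_right ?_ (prod_nonneg fun p hp => hg p (hr' hp))
        refine Nat.cast_div_le.trans (le_of_eq ?_)
        push_cast
        rw [prod_div_distrib, prod_const_one, mul_one_div]
    _ = M * ∏ p ∈ A, (1 + 1 / ((p : ℝ) - 1) * (1 / p)) := by rw [← mul_sum, prod_one_add]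
    _ ≤ M * Real.exp 1 := by
        gcongr
        calc _ ≤ ∏ p ∈ A, Real.exp (1 / ((p : ℝ) - 1) * (1 / p)) := by
              refine prod_le_prod (fun p hp => ?_) fun p _ => ?_
              · have := hg p hp; positivity
              · rw [add_comm]; exact Real.add_one_le_exp _
          _ = Real.exp (∑ p ∈ A, 1 / ((p : ℝ) - 1) * (1 / p)) := (Real.exp_sum _ _).symm
          _ ≤ _ := Real.exp_le_exp.mpr (sum_inv_mul_pred_le hA)
    _ ≤ 3 * M := by
        have := Real.exp_one_lt_d9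
        have : (0 : ℝ) ≤ M := Nat.cast_nonneg _
        nlinarith

lemma exists_root {p : ℕ} (hp : 0 < p) (k : ℕ) : ∃ a < p, p ∣ a + k := by
  refine ⟨(k * (p - 1)) % p, Nat.mod_lt _ hp, ?_⟩
  rw [Nat.dvd_iff_mod_eq_zero, Nat.mod_add_mod]
  have : k * (p - 1) + k = k * p := by
    obtain ⟨q, rfl⟩ : ∃ q, p = q + 1 := ⟨p - 1, by omega⟩
    simp; ring
  rw [this, Nat.mul_mod_left]

/-- the shift `k` survives the small primes for the residue vector `b` -/
def surv (A : Finset ℕ) (b : A → ℕ) (k : ℕ) : Prop := ∀ p : A, ¬ (p : ℕ) ∣ b p + k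

instance (A : Finset ℕ) (b : A → ℕ) (k : ℕ) : Decidable (surv A b k) := by
  unfold surv; infer_instance

lemma card_surv_le {A : Finset ℕ} (hA : ∀ p ∈ A, Nat.Prime p) (k : ℕ) :
    (((resSet A).filter fun b => surv A b k).card : ℝ) ≤
      (∏ p ∈ A, p : ℕ) * ∏ p ∈ A, (1 - 1 / (p : ℝ)) := by
  have e : ((resSet A).filter fun b => surv A b k) =
      Fintype.piFinset fun p : A => (range (p : ℕ)).filter fun a => ¬ (p : ℕ) ∣ a + k := by
    ext b; simp only [resSet, surv, mem_filter, Fintype.mem_piFinset, forall_and]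
  rw [e, Fintype.card_piFinset]
  push_cast
  rw [← prod_mul_distrib, ← prod_coe_sort A]
  refine prod_le_prod (fun _ _ => Nat.cast_nonneg _) fun p _ => ?_
  have hp := hA p p.2
  obtain ⟨a, ha, ha'⟩ := exists_root hp.pos k
  have h1 : ((range (p : ℕ)).filter fun a => ¬ (p : ℕ) ∣ a + k) ⊆ (range (p : ℕ)).erase a := by
    intro x hx
    simp only [mem_filter, mem_erase] at hx ⊢
    exact ⟨fun e => hx.2 (e ▸ ha'), hx.1⟩
  have h2 := card_le_card h1
  rw [card_erase_of_mem (mem_range.mpr ha), card_range] at h2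
  have h3 : (0 : ℝ) < (p : ℕ) := by exact_mod_cast hp.pos
  calc _ ≤ (((p : ℕ) - 1 : ℕ) : ℝ) := by exact_mod_cast h2
    _ = _ := by rw [Nat.cast_sub hp.one_le]; field_simp; simp

lemma card_surv_pair_le {A : Finset ℕ} (hA : ∀ p ∈ A, Nat.Prime p) (k d : ℕ) :
    (((resSet A).filter fun b => surv A b k ∧ surv A b (k + d)).card : ℝ) ≤
      (∏ p ∈ A, p : ℕ) * ((∏ p ∈ A, (1 - 1 / (p : ℝ))) ^ 2 * sing A d) := by
  have e : ((resSet A).filter fun b => surv A b k ∧ surv A b (k + d)) =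
      Fintype.piFinset fun p : A => (range (p : ℕ)).filter fun a =>
        ¬ (p : ℕ) ∣ a + k ∧ ¬ (p : ℕ) ∣ a + (k + d) := by
    ext b; simp only [resSet, surv, mem_filter, Fintype.mem_piFinset, forall_and]
  rw [e, Fintype.card_piFinset]
  push_cast
  rw [sing, ← prod_pow, ← prod_mul_distrib, ← prod_mul_distrib, ← prod_coe_sort A]
  refine prod_le_prod (fun _ _ => Nat.cast_nonneg _) fun p _ => ?_
  have hp := hA p p.2
  obtain ⟨a, ha, ha'⟩ := exists_root hp.pos k
  obtain ⟨a₂, ha₂, ha₂'⟩ := exists_root hp.pos (k + d)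
  have h3 : (2 : ℝ) ≤ (p : ℕ) := by exact_mod_cast hp.two_le
  have h4 : (0 : ℝ) < (p : ℕ) - 1 := by linarith
  split_ifs with hd
  · have h1 : ((range (p : ℕ)).filter fun a => ¬ (p : ℕ) ∣ a + k ∧ ¬ (p : ℕ) ∣ a + (k + d)) ⊆
        (range (p : ℕ)).erase a := by
      intro x hx
      simp only [mem_filter, mem_erase] at hx ⊢
      exact ⟨fun e => hx.2.1 (e ▸ ha'), hx.1⟩
    have h2 := card_le_card h1
    rw [card_erase_of_mem (mem_range.mpr ha), card_range] at h2
    calc _ ≤ (((p : ℕ) - 1 : ℕ) : ℝ) := by exact_mod_cast h2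
      _ = _ := by rw [Nat.cast_sub hp.one_le]; field_simp; push_cast; ring
  · have hne : a₂ ≠ a := by
      intro e
      rw [e, ← add_assoc] at ha₂'
      exact hd ((Nat.dvd_add_right ha').mp ha₂')
    have h1 : ((range (p : ℕ)).filter fun a => ¬ (p : ℕ) ∣ a + k ∧ ¬ (p : ℕ) ∣ a + (k + d)) ⊆
        ((range (p : ℕ)).erase a).erase a₂ := by
      intro x hx
      simp only [mem_filter, mem_erase] at hx ⊢
      exact ⟨fun e => hx.2.2 (e ▸ ha₂'), fun e => hx.2.1 (e ▸ ha'), hx.1⟩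
    have h2 := card_le_card h1
    rw [card_erase_of_mem (mem_erase.mpr ⟨hne, mem_range.mpr ha₂⟩),
      card_erase_of_mem (mem_range.mpr ha), card_range] at h2
    have h5 := hp.two_le
    calc _ ≤ (((p : ℕ) - 2 : ℕ) : ℝ) := by exact_mod_cast (h2.trans (by omega))
      _ ≤ _ := by
        rw [Nat.cast_sub h5]
        have : ((p : ℕ) : ℝ) * ((1 - 1 / ((p : ℕ) : ℝ)) ^ 2 * (1 + 0)) =
            (p : ℕ) - 2 + 1 / ((p : ℕ) : ℝ) := by field_simp; ring
        rw [this]
        have : (0 : ℝ) ≤ 1 / ((p : ℕ) : ℝ) := by positivity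
        push_cast; linarith

end Crest.Agent.PrimeGap
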