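import Mathlib
import Crest.Agent.PrimeGap.Primes

/-! The concrete scales and one-particle data. -/

set_option autoImplicit false

namespace Crest.Agent.PrimeGap

open Finset

/-- scale boundaries -/
def yy (m i : ℕ) : ℕ := 4 ^ (4 * m * 2 ^ i)

lemma yy_mono (m : ℕ) {i j : ℕ} (h : i ≤ j) : yy m i ≤ yy m j :=
  Nat.pow_le_pow_right (by norm_num) (Nat.mul_le_mul_left _ (Nat.pow_le_pow_right (by norm_num) h))

lemma yy_succ (m i : ℕ) : yy m (i + 1) = 4 ^ (2 * (4 * m * 2 ^ i)) := by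
  unfold yy; congr 1; ring

noncomputable def scl (m p : ℕ) : ℕ := sInf {i | p ≤ yy m (i + 1)}

lemma scl_eq {m p i : ℕ} (h1 : yy m i < p) (h2 : p ≤ yy m (i + 1)) : scl m p = i := by
  have h0 : scl m p ≤ i := Nat.sInf_le (s := {i | p ≤ yy m (i + 1)}) h2
  apply le_antisymm h0
  by_contra hlt
  have h3 : scl m p ∈ {i | p ≤ yy m (i + 1)} := Nat.sInf_mem ⟨i, h2⟩
  have h4 : yy m (scl m p + 1) ≤ yy m i := yy_mono m (by omega)
  have h5 : p ≤ yy m (scl m p + 1) := h3
  omega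

lemma scl_spec {m p I : ℕ} (h1 : yy m 0 < p) (h2 : p ≤ yy m (I + 1)) :
    yy m (scl m p) < p ∧ p ≤ yy m (scl m p + 1) := by
  have h3 : scl m p ∈ {i | p ≤ yy m (i + 1)} := Nat.sInf_mem ⟨I, h2⟩
  refine ⟨?_, h3⟩
  rcases h : scl m p with _ | k
  · exact h1
  · by_contra hle
    have : scl m p ≤ k := Nat.sInf_le (show p ≤ yy m (k + 1) by omega)
    omega

/-- parameters -/
structure Par where
  m : ℕ
  I : ℕ
  M : ℕ
  hm : 2 ≤ m
  hM : 1 ≤ M
  hy : 4 * M ^ 2 ≤ yy m 0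

namespace Par
variable (π : Par)

def A : Finset ℕ := primesIn 0 (4 ^ π.m)
def B : Finset ℕ := primesIn (yy π.m 0) (yy π.m (π.I + 1))
noncomputable def u₀ : ℝ := 8 * π.m * Real.log 4
noncomputable def ρw : ℝ := ∏ p ∈ π.A, (1 - 1 / (p : ℝ))
def Q : ℕ := (∏ p ∈ π.A, p) * ∏ p ∈ π.B, p

lemma hA : ∀ p ∈ π.A, Nat.Prime p := fun _ hp => (mem_primesIn.mp hp).2
lemma hB : ∀ p ∈ π.B, Nat.Prime p := fun _ hp => (mem_primesIn.mp hp).2
lemma hBy : ∀ p ∈ π.B, yy π.m 0 < p := fun _ hp => (mem_primesIn.mp hp).1.1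

lemma w_le : 4 ^ π.m ≤ yy π.m 0 := Nat.pow_le_pow_right (by norm_num) (by omega)

lemma hAB : Disjoint π.A π.B := by
  rw [disjoint_left]; intro p h1 h2
  have := π.w_le
  rw [A, mem_primesIn] at h1; rw [B, mem_primesIn] at h2; omega

lemma Q_pos : 0 < π.Q :=
  Nat.mul_pos (prod_pos fun p hp => (π.hA p hp).pos) (prod_pos fun p hp => (π.hB p hp).pos)

lemma ρw_pos : 0 < π.ρw := prod_pos fun p hp => by
  have : (1 : ℝ) < p := by exact_mod_cast (π.hA p hp).one_lt
  rw [sub_pos, div_lt_one (by linarith)]; exact this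

lemma four_M_le {p : ℕ} (hp : p ∈ π.B) : 4 * (π.M : ℝ) ≤ p := by
  have h1 := π.hBy p hp
  have h2 := π.hy
  have h3 := π.hM
  have : 4 * π.M ≤ p := by nlinarith
  exact_mod_cast this

lemma qq_le {p : ℕ} (hp : p ∈ π.B) : qq π.M p ≤ 2 * (1 / (p : ℝ)) := by
  have h1 := π.four_M_le hp
  have h3 : (1 : ℝ) ≤ π.M := by exact_mod_cast π.hM
  unfold qq
  rw [mul_one_div, div_le_div_iff₀ (by linarith) (by linarith)]; linarith

lemma le_qq {p : ℕ} (hp : p ∈ π.B) : 1 / (p : ℝ) ≤ qq π.M p := by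
  have h1 := π.four_M_le hp
  have h3 : (1 : ℝ) ≤ π.M := by exact_mod_cast π.hM
  unfold qq
  exact one_div_le_one_div_of_le (by linarith) (by linarith)

lemma sum_filter_scl (i : ℕ) (f : ℕ → ℝ) :
    ∑ p ∈ (univ : Finset π.B).filter (fun p : π.B => scl π.m p = i), f (p : ℕ) =
      ∑ p ∈ π.B.filter (fun p => scl π.m p = i), f p := by
  rw [sum_filter, sum_filter]
  exact sum_coe_sort π.B (fun p => if scl π.m p = i then f p else 0)

lemma prod_filter_scl (i : ℕ) (f : ℕ → ℝ) :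
    ∏ p ∈ (univ : Finset π.B).filter (fun p : π.B => scl π.m p = i), f (p : ℕ) =
      ∏ p ∈ π.B.filter (fun p => scl π.m p = i), f p := by
  rw [prod_filter, prod_filter]
  exact prod_coe_sort π.B (fun p => if scl π.m p = i then f p else 1)

lemma filter_scl_subset (i : ℕ) :
    π.B.filter (fun p => scl π.m p = i) ⊆ primesIn (yy π.m i) (yy π.m (i + 1)) := by
  intro p hp
  obtain ⟨h1, rfl⟩ := mem_filter.mp hp
  have h2 := mem_primesIn.mp h1
  exact mem_primesIn.mpr ⟨scl_spec h2.1.1 h2.1.2, h2.2⟩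

lemma filter_scl_eq {i : ℕ} (hi : i ≤ π.I) :
    π.B.filter (fun p => scl π.m p = i) = primesIn (yy π.m i) (yy π.m (i + 1)) := by
  refine (π.filter_scl_subset i).antisymm fun p hp => ?_
  have h2 := mem_primesIn.mp hp
  have h3 := yy_mono π.m (Nat.zero_le i)
  have h4 := yy_mono π.m (show i + 1 ≤ π.I + 1 by omega)
  exact mem_filter.mpr ⟨mem_primesIn.mpr ⟨⟨by omega, by omega⟩, h2.2⟩, scl_eq h2.1.1 h2.1.2⟩

/-- the scale structure on the large primes -/
noncomputable def s : Sc π.B where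
  q p := qq π.M p
  sc p := scl π.m p
  μ₁ := 8
  hq0 p := le_trans (by positivity) (π.le_qq p.2)
  hq1 p := by
    have h1 := π.four_M_le p.2
    have h3 : (1 : ℝ) ≤ π.M := by exact_mod_cast π.hM
    unfold qq
    exact one_div_le_one_div_of_le (by linarith) (by linarith)
  hμ₁ i := by
    rw [π.sum_filter_scl i (fun p => qq π.M p)]
    have hm := π.hm
    have h1 := sum_inv_sq_le (m := 4 * π.m * 2 ^ i) (Nat.mul_pos (by omega) (by positivity))
    rw [← yy_succ] at h1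
    calc _ ≤ ∑ p ∈ π.B.filter (fun p => scl π.m p = i), 2 * (1 / (p : ℝ)) :=
          sum_le_sum fun p hp => π.qq_le (mem_filter.mp hp).1
      _ ≤ ∑ p ∈ primesIn (yy π.m i) (yy π.m (i + 1)), 2 * (1 / (p : ℝ)) :=
          sum_le_sum_of_subset_of_nonneg (π.filter_scl_subset i) fun _ _ _ => by positivity
      _ ≤ 8 := by rw [← mul_sum]; unfold yy at h1 ⊢; linarith

lemma ms_ge {i : ℕ} (hi : i ≤ π.I) : 1 / 16 ≤ π.s.ms i := by
  have hm := π.hm
  have h0 : 1 ≤ 2 ^ i := Nat.one_le_two_pow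
  have h1 := sum_inv_sq_ge (m := 4 * π.m * 2 ^ i) (by nlinarith)
  rw [← yy_succ] at h1
  have e : π.s.ms i = ∑ p ∈ π.B.filter (fun p => scl π.m p = i), qq π.M p :=
    π.sum_filter_scl i (fun p => qq π.M p)
  rw [e]
  refine h1.trans ?_
  have := π.filter_scl_eq hi
  unfold yy at this ⊢
  rw [← this]
  exact sum_le_sum fun p hp => π.le_qq (mem_filter.mp hp).1

lemma log4_pos : 1 < Real.log 4 := by
  have : Real.log 4 = 2 * Real.log 2 := by
    rw [show (4 : ℝ) = 2 ^ 2 by norm_num, Real.log_pow]; norm_num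
  have := Real.log_two_gt_d9
  linarith

lemma u₀_ge : 16 ≤ π.u₀ := by
  have h1 : (2 : ℝ) ≤ π.m := by exact_mod_cast π.hm
  have := log4_pos
  unfold u₀; nlinarith

lemma exp_u (i : ℕ) : Real.exp (2 ^ i * π.u₀) = yy π.m (i + 1) := by
  rw [yy_succ]; push_cast
  rw [← Real.exp_log (show (0 : ℝ) < 4 by norm_num), ← Real.exp_nat_mul]
  congr 1; unfold u₀; push_cast; ring

lemma prod_ρ_le {j : ℕ} (hj : j ≤ π.I + 1) :
    ∏ i ∈ range j, π.s.ρ i ≤ ∏ p ∈ primesIn (yy π.m 0) (yy π.m j), (1 - 1 / (p : ℝ)) := by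
  induction j with
  | zero => simp [primesIn]
  | succ j ih =>
    rw [prod_range_succ, prod_primesIn_split (yy_mono π.m (Nat.zero_le j))
      (yy_mono π.m (Nat.le_succ j))]
    refine mul_le_mul (ih (by omega)) ?_ (π.s.ρ_nonneg j) (prod_nonneg fun p hp => ?_)
    · have e : π.s.ρ j = ∏ p ∈ π.B.filter (fun p => scl π.m p = j), (1 - qq π.M p) :=
        π.prod_filter_scl j (fun p => 1 - qq π.M p)
      rw [e, ← π.filter_scl_eq (by omega)]
      refine prod_le_prod (fun p hp => ?_) fun p hp => ?_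
      · have := π.s.hq1 ⟨p, (mem_filter.mp hp).1⟩
        simp only [s] at this; linarith
      · linarith [π.le_qq (mem_filter.mp hp).1]
    · have : (1 : ℝ) < p := by exact_mod_cast (mem_primesIn.mp hp).2.one_lt
      rw [sub_nonneg, div_le_one (by linarith)]; exact this.le

/-- absolute constant -/
noncomputable def C6 : ℝ := 2 * Real.exp 24 * Sc.Cst (1 / 16) 8

lemma Cst_pos : 0 < Sc.Cst (1 / 16) 8 := by unfold Sc.Cst; positivity

lemma C6_pos : 0 < C6 := by unfold C6; have := Cst_pos; positivity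

/-- second moment bound of the scale `j` function -/
noncomputable def gam (j : ℕ) : ℝ := Sc.Cst (1 / 16) 8 * ∏ i ∈ range j, π.s.ρ i

lemma gam_nonneg (j : ℕ) : 0 ≤ π.gam j :=
  mul_nonneg Cst_pos.le (prod_nonneg fun i _ => π.s.ρ_nonneg i)

lemma ρw_gam {j : ℕ} (hj : j ≤ π.I) : π.ρw * π.gam j ≤ C6 / (2 ^ j * π.u₀) := by
  have hm := π.hm
  have hm' : (0 : ℝ) < π.m := by exact_mod_cast (by omega : 0 < π.m)
  have h1 := π.prod_ρ_le (j := j) (by omega)
  have h2 := rho_le (y := yy π.m j) (Nat.one_le_pow _ _ (by norm_num))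
  rw [prod_primesIn_split (Nat.zero_le _) (yy_mono π.m (Nat.zero_le j)),
    prod_primesIn_split (Nat.zero_le _) π.w_le] at h2
  have h3 := exp_le_prod_one_sub (4 ^ π.m) (yy π.m 0)
  have h4 := sum_inv_le (m := π.m) (by omega) (3 * π.m)
  have e : π.m + 3 * π.m = 4 * π.m * 2 ^ 0 := by ring
  rw [e] at h4
  have h5 : ((3 * π.m : ℕ) : ℝ) * (4 / π.m) = 12 := by push_cast; field_simp; norm_num
  rw [h5] at h4
  have h6 : Real.exp (-24) ≤ ∏ p ∈ primesIn (4 ^ π.m) (yy π.m 0), (1 - 1 / (p : ℝ)) := by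
    refine le_trans (Real.exp_le_exp.mpr ?_) h3
    unfold yy; linarith
  have hu := π.u₀_ge
  have h7 : 1 / Real.log (yy π.m j + 1) ≤ 2 / (2 ^ j * π.u₀) := by
    have e2 : Real.log (yy π.m j) = 2 ^ j * π.u₀ / 2 := by
      unfold yy u₀; push_cast; rw [Real.log_pow]; push_cast; ring
    have h8 : Real.log (yy π.m j) ≤ Real.log (yy π.m j + 1) :=
      Real.log_le_log (by unfold yy; positivity) (by linarith)
    rw [e2] at h8
    calc _ ≤ 1 / (2 ^ j * π.u₀ / 2) := one_div_le_one_div_of_le (by positivity) h8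
      _ = _ := by field_simp
  have hρ := π.ρw_pos
  have h9 : 0 ≤ ∏ i ∈ range j, π.s.ρ i := prod_nonneg fun i _ => π.s.ρ_nonneg i
  have h10 : π.ρw * Real.exp (-24) * ∏ i ∈ range j, π.s.ρ i ≤ 2 / (2 ^ j * π.u₀) := by
    refine le_trans ?_ (h2.trans h7)
    exact mul_le_mul (mul_le_mul_of_nonneg_left h6 hρ.le) h1 h9
      (mul_nonneg hρ.le ((Real.exp_pos _).le.trans h6))
  have e3 : π.ρw * π.gam j = (π.ρw * Real.exp (-24) * ∏ i ∈ range j, π.s.ρ i) *
      (Real.exp 24 * Sc.Cst (1 / 16) 8) := by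
    rw [gam, Real.exp_neg]; field_simp
  rw [e3, C6]
  have := Cst_pos
  calc _ ≤ 2 / (2 ^ j * π.u₀) * (Real.exp 24 * Sc.Cst (1 / 16) 8) := by gcongr
    _ = _ := by ring

lemma low_Lam {j : ℕ} (hj : j ≤ π.I) (h : Fin π.M) :
    Low π.Q (fun n => π.s.Lam j (om π.M π.B n h)) (Real.exp (9 * (2 ^ j * π.u₀))) := by
  have hu := π.u₀_ge
  refine π.s.low_Lam π.Q_pos (fun p => ((p : ℕ) : ℝ)) (μ₀ := 1 / 16) (by linarith) (by norm_num)
    ?_ ?_ ?_ (fun n => om π.M π.B n h) ?_ j (π.ms_ge hj)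
  · have := Real.add_one_le_exp π.u₀; norm_num; linarith
  · intro p
    rw [exp_u]
    have h2 := mem_primesIn.mp p.2
    exact_mod_cast (scl_spec h2.1.1 h2.1.2).2
  · intro i
    rw [exp_u]
    have e : ((π.s.P i).card : ℝ) = (π.B.filter (fun p => scl π.m p = i)).card := by
      have := π.sum_filter_scl i (fun _ => 1)
      simp only [sum_const, nsmul_eq_mul, mul_one] at this
      exact this
    rw [e]
    have h1 := card_le_card (π.filter_scl_subset i)
    have h2 : (primesIn (yy π.m i) (yy π.m (i + 1))).card ≤ yy π.m (i + 1) := by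
      refine (card_filter_le _ _).trans ?_
      rw [Nat.card_Ioc]; omega
    exact_mod_cast h1.trans h2
  · intro p
    exact low_ind_om (fun p hp => Dvd.dvd.mul_left (dvd_prod_of_mem _ hp) _) h p

/-- the Fock data with `k + 1` top scales -/
noncomputable def d (k : ℕ) (hk : k ≤ π.I) : Dat (π.B → Bool) (Fin (k + 1)) where
  μ := π.s.μ
  θ := 1 / (k + 1)
  Λ j := π.s.Lam (π.I - j)
  lev j := 9 * (2 ^ (π.I - j) * π.u₀)
  L := 18 * (2 ^ π.I * π.u₀)
  γ j := π.gam (π.I - j)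
  j₀ := 0
  one :=
    { prob := π.s.prob
      mean := fun j => π.s.Ex_Lam (lt_of_lt_of_le (by norm_num) (π.ms_ge (Nat.sub_le _ _)))
      orth := fun i j hij => by
        have hi := i.2
        have hj := j.2
        have hne : (i : ℕ) ≠ j := fun e => hij (Fin.ext e)
        rcases lt_or_gt_of_ne hne with h | h
        · have := π.s.Ex_Lam_mul (i := π.I - j) (j := π.I - i) (by omega)
            (lt_of_lt_of_le (by norm_num) (π.ms_ge (Nat.sub_le _ _)))
          simpa only [mul_comm] using this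
        · exact π.s.Ex_Lam_mul (i := π.I - i) (j := π.I - j) (by omega)
            (lt_of_lt_of_le (by norm_num) (π.ms_ge (Nat.sub_le _ _))) }
  hθ := by positivity
  hθJ := by simp; field_simp
  hlev0 j := by have := π.u₀_ge; positivity
  hlevL j := by
    have := π.u₀_ge
    have : (2 : ℝ) ^ (π.I - j) ≤ 2 ^ π.I := pow_le_pow_right₀ (by norm_num) (Nat.sub_le _ _)
    nlinarith
  hL := by have := π.u₀_ge; positivity
  h2 j := π.s.Ex_Lam_sq (by norm_num) _ (π.ms_ge (Nat.sub_le _ _))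
  h4 j := π.s.Ex_Lam_four (by norm_num) _ (π.ms_ge (Nat.sub_le _ _))

lemma om_of_prime {n : ℕ} {h : Fin π.M} (hp : (n + (h + 1)).Prime)
    (hn : yy π.m (π.I + 1) < n + (h + 1)) (p : π.B) : om π.M π.B n h p = false := by
  simp only [om, decide_eq_false_iff_not]
  intro hd
  have h1 := (Nat.prime_dvd_prime_iff_eq (π.hB p p.2) hp).mp hd
  have h2 := (mem_primesIn.mp p.2).1.2
  omega

lemma surv_of_prime {n k : ℕ} (hp : (n + k).Prime) (hn : yy π.m (π.I + 1) < n + k) :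
    surv π.A (res π.A n) k := by
  intro p hd
  simp only [res] at hd
  rw [Nat.dvd_iff_mod_eq_zero, Nat.mod_add_mod, ← Nat.dvd_iff_mod_eq_zero] at hd
  have h1 := (Nat.prime_dvd_prime_iff_eq (π.hA p p.2) hp).mp hd
  have h2 := (mem_primesIn.mp p.2).1.2
  have h3 := π.w_le
  have h4 := yy_mono π.m (Nat.zero_le (π.I + 1))
  omega

end Par

end Crest.Agent.PrimeGap
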