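import Mathlib
import Crest.Agent.PrimeGap.Setup

/-! The two counting bounds. -/

set_option autoImplicit false

namespace Crest.Agent.PrimeGap

open Finset

namespace Par
variable (π : Par)

noncomputable def U : ℝ := 2 ^ π.I * π.u₀

lemma U_pos : 0 < π.U := by have := π.u₀_ge; unfold U; positivity

def Aw (H : ℕ) (b : π.A → ℕ) (i : ℕ) : Finset (Fin π.M) :=
  univ.filter fun h => (h : ℕ) / H = i ∧ surv π.A b (h + 1)

lemma good {k : ℕ} (hk : k ≤ π.I) {H : ℕ} {K₀ D : ℝ} (hK₀ : 0 < K₀)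
    (hD : K₀ * C6 * H ≤ D * π.U) (hDk : D ≤ k + 1) {W : Finset (Fin π.M)}
    (hW : (W.card : ℝ) ≤ K₀ * H * π.ρw) :
    (π.d k hk).Good W (D / (2 * (k + 1))) (D * 2 ^ k) D := by
  have hu := π.u₀_ge
  have hU := π.U_pos
  have hC := C6_pos
  have hD0 : 0 ≤ D := nonneg_of_mul_nonneg_left (le_trans (by positivity) hD) hU
  have key : ∀ j : ℕ, W.card * π.gam (π.I - j) * (2 ^ (π.I - j) * π.u₀) ≤ D * π.U := by
    intro j
    have h1 := π.ρw_gam (Nat.sub_le π.I j)
    rw [le_div_iff₀ (by positivity)] at h1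
    have h2 := π.gam_nonneg (π.I - j)
    calc W.card * π.gam (π.I - j) * (2 ^ (π.I - j) * π.u₀)
        ≤ (K₀ * H * π.ρw) * π.gam (π.I - j) * (2 ^ (π.I - j) * π.u₀) := by gcongr
      _ = K₀ * H * (π.ρw * π.gam (π.I - j) * (2 ^ (π.I - j) * π.u₀)) := by ring
      _ ≤ K₀ * H * C6 := by gcongr
      _ ≤ _ := by linarith
  have key2 : ∀ j : ℕ, j ≤ π.I → W.card * π.gam (π.I - j) ≤ D * 2 ^ j := by
    intro j hj
    have h1 := key j
    have e : D * π.U = D * 2 ^ j * (2 ^ (π.I - j) * π.u₀) := by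
      rw [U, show (2 : ℝ) ^ π.I = 2 ^ j * 2 ^ (π.I - j) by rw [← pow_add]; congr 1; omega]; ring
    rw [e] at h1
    exact le_of_mul_le_mul_right h1 (by positivity)
  refine ⟨fun j => ?_, fun j => ?_, ?_, ?_⟩
  · have h1 := key j
    simp only [d]
    calc 1 / ((k : ℝ) + 1) * (W.card * π.gam (π.I - j) * (9 * (2 ^ (π.I - j) * π.u₀)))
        = 1 / ((k : ℝ) + 1) * (9 * (W.card * π.gam (π.I - j) * (2 ^ (π.I - j) * π.u₀))) := by ring
      _ ≤ 1 / ((k : ℝ) + 1) * (9 * (D * π.U)) := by gcongr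
      _ = _ := by rw [U]; field_simp; ring
  · have hj := j.2
    refine (key2 j (by omega)).trans ?_
    gcongr
    · norm_num
    · omega
  · have := key2 0 (Nat.zero_le _)
    rw [pow_zero, mul_one] at this
    exact this
  · rw [div_le_div_iff₀ (by positivity) (by norm_num)]; linarith

lemma hlevS (k : ℕ) (hk : k ≤ π.I) (j : Fin (k + 1)) :
    Fintype.card (Fin π.M) * Real.exp (-(π.d k hk).lev j) ≤ 1 := by
  have hu := π.u₀_ge
  have h1 := π.exp_u 0
  have h2 := yy_mono π.m (Nat.zero_le (0 + 1))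
  have h3 := π.hy
  have h4 := π.hM
  have h5 : (π.M : ℝ) ≤ Real.exp (2 ^ 0 * π.u₀) := by
    rw [h1]; exact_mod_cast (by nlinarith)
  rw [Fintype.card_fin, Real.exp_neg, mul_inv_le_iff₀ (Real.exp_pos _), one_mul]
  refine h5.trans (Real.exp_le_exp.mpr ?_)
  simp only [d]
  have : (1 : ℝ) ≤ 2 ^ (π.I - j) := one_le_pow₀ (by norm_num)
  nlinarith

theorem bad_bound {k : ℕ} (hk : k ≤ π.I) {H T : ℕ} (hT : 0 < T) (hH : 0 < H) (hM : π.M = T * H)
    {K₀ D : ℝ} (hK₀ : 0 < K₀) (hD : K₀ * C6 * H ≤ D * π.U) (hDk : D ≤ k + 1) (X : ℕ) :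
    (((range X).filter fun n => yy π.m (π.I + 1) ≤ n ∧
        ∀ i < T, ∃ a ∈ Ioc (i * H) ((i + 1) * H), (n + a).Prime).card : ℝ) ≤
      X * (2 * (4 * D ^ 2 / (k + 1) + 32 * Real.exp (15 * (D * 2 ^ k)) / T + 2 / K₀)) +
        2 * (((∏ p ∈ π.A, p : ℕ) : ℝ) ^ 2 * ((4 * π.M + 36) * Real.exp (8 * (18 * π.U) + 4))) := by
  classical
  have hT' : (0 : ℝ) < T := by exact_mod_cast hT
  have hH' : (0 : ℝ) < H := by exact_mod_cast hH
  have hρ := π.ρw_pos
  have hU := π.U_pos
  let Ib : (π.A → ℕ) → Finset ℕ := fun b =>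
    (range T).filter fun i => ((π.Aw H b i).card : ℝ) ≤ K₀ * H * π.ρw
  have hg : ∀ b, ∀ i ∈ Ib b, (π.d k hk).Good (π.Aw H b i) (D / (2 * (k + 1))) (D * 2 ^ k) D :=
    fun b i hi => π.good hk hK₀ hD hDk (mem_filter.mp hi).2
  let F : (π.A → ℕ) → (Fin π.M → π.B → Bool) → ℝ := fun b ω =>
    if T ≤ 2 * (Ib b).card then (π.d k hk).Fb (Ib b) (π.Aw H b) ω else 1
  have hF0 : ∀ b ω, 0 ≤ F b ω := by
    intro b ω; simp only [F]; split_ifs
    · exact Dat.Fb_nonneg (hg b) ω
    · norm_num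
  have hne : ∀ b, T ≤ 2 * (Ib b).card → (Ib b).Nonempty := fun b h => card_pos.mp (by omega)
  have hlow : ∀ b, Low π.Q (fun n => F b (om π.M π.B n))
      ((4 * π.M + 36) * Real.exp (8 * (18 * π.U) + 4)) := by
    intro b
    simp only [F]
    split_ifs with h
    · have := Dat.low_Fb π.Q_pos (hg b) (hne b h) (π.hlevS k hk) (fun n => om π.M π.B n)
        (fun j s => π.low_Lam (Nat.sub_le _ _) s)
      rw [Fintype.card_fin] at this
      exact this
    · refine (Low.const 1).mono ?_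
      have : 1 ≤ Real.exp (8 * (18 * π.U) + 4) := Real.one_le_exp (by positivity)
      have : (0 : ℝ) ≤ π.M := Nat.cast_nonneg _
      rw [abs_one]; nlinarith
  have htr := transfer π.hA π.hB π.hAB π.hM π.hy π.hBy F hF0 hlow X
  have h1 : (((range X).filter fun n => yy π.m (π.I + 1) ≤ n ∧
        ∀ i < T, ∃ a ∈ Ioc (i * H) ((i + 1) * H), (n + a).Prime).card : ℝ) ≤
      ∑ n ∈ range X, F (res π.A n) (om π.M π.B n) := by
    rw [card_filter]; push_cast
    refine sum_le_sum fun n _ => ?_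
    split_ifs with hn
    · simp only [F]
      split_ifs with hb
      · refine Dat.one_le_Fb (hg _) fun i hi => ?_
        have hiT := mem_range.mp (mem_filter.mp hi).1
        obtain ⟨a, ha, hp⟩ := hn.2 i hiT
        rw [mem_Ioc] at ha
        have h2 : (i + 1) * H ≤ T * H := Nat.mul_le_mul_right _ hiT
        have h3 : a - 1 < π.M := by omega
        have h4 : a - 1 + 1 = a := by omega
        refine ⟨⟨a - 1, h3⟩, ?_, fun j => ?_⟩
        · simp only [Aw, mem_filter, mem_univ, true_and, h4]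
          refine ⟨?_, π.surv_of_prime hp (by omega)⟩
          rw [Nat.div_eq_iff hH]
          have : (i + 1) * H = i * H + H := by ring
          omega
        · exact π.s.Lam_of_none _ (π.om_of_prime (by simpa only [h4] using hp) (by simp only [h4]; omega))
      · exact le_rfl
    · exact hF0 _ _
  have hD0 : 0 ≤ D := by
    have := C6_pos
    exact nonneg_of_mul_nonneg_left (le_trans (by positivity) hD) hU
  have h2 : ∀ b, Ex (indW π.M π.B) (F b) ≤
      4 * D ^ 2 / (k + 1) + 32 * Real.exp (15 * (D * 2 ^ k)) / T +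
        2 / (K₀ * π.M * π.ρw) * ∑ h : Fin π.M, if surv π.A b (h + 1) then (1 : ℝ) else 0 := by
    intro b
    have hs0 : 0 ≤ ∑ h : Fin π.M, if surv π.A b (h + 1) then (1 : ℝ) else 0 :=
      sum_nonneg fun _ _ => by split_ifs <;> norm_num
    by_cases hb : T ≤ 2 * (Ib b).card
    · have e : F b = (π.d k hk).Fb (Ib b) (π.Aw H b) := by ext ω; simp only [F, if_pos hb]
      have h3 := Dat.E_Fb (hg b) (hne b hb) (fun i _ i' _ hii => by
        rw [disjoint_left]; intro h h1 h2
        simp only [Aw, mem_filter] at h1 h2; omega)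
      rw [e]
      refine le_trans h3 ?_
      have hb' : (T : ℝ) ≤ 2 * (Ib b).card := by exact_mod_cast hb
      have h4 : 16 * Real.exp (15 * (D * 2 ^ k)) / (Ib b).card ≤
          32 * Real.exp (15 * (D * 2 ^ k)) / T := by
        rw [div_le_div_iff₀ (by linarith) hT']
        nlinarith [Real.exp_pos (15 * (D * 2 ^ k))]
      have h5 : 8 * (D / (2 * ((k : ℝ) + 1))) * D = 4 * D ^ 2 / (k + 1) := by field_simp; ring
      have h6 : 0 ≤ 2 / (K₀ * π.M * π.ρw) *
          ∑ h : Fin π.M, if surv π.A b (h + 1) then (1 : ℝ) else 0 := by positivity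
      linarith
    · have e : F b = fun _ => 1 := by ext ω; simp only [F, if_neg hb]
      have e2 : Ex (indW π.M π.B) (fun _ => (1 : ℝ)) = 1 := (π.d k hk).prob.Ex_const 1
      rw [e, e2]
      have h3 : ∑ i ∈ range T, ((π.Aw H b i).card : ℝ) ≤
          ∑ h : Fin π.M, if surv π.A b (h + 1) then (1 : ℝ) else 0 := by
        simp only [Aw, card_filter]; push_cast
        rw [sum_comm]
        refine sum_le_sum fun h _ => ?_
        by_cases hs : surv π.A b (h + 1)
        · simp only [hs, and_true, if_true, sum_ite_eq]; split_ifs <;> norm_num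
        · simp [hs]
      have h4 : ((range T \ Ib b).card : ℝ) * (K₀ * H * π.ρw) ≤
          ∑ i ∈ range T, ((π.Aw H b i).card : ℝ) := by
        calc _ = ∑ i ∈ range T \ Ib b, K₀ * H * π.ρw := by rw [sum_const, nsmul_eq_mul]
          _ ≤ ∑ i ∈ range T \ Ib b, ((π.Aw H b i).card : ℝ) := by
              refine sum_le_sum fun i hi => ?_
              rw [mem_sdiff] at hi
              by_contra hc
              exact hi.2 (mem_filter.mpr ⟨hi.1, (not_le.mp hc).le⟩)
          _ ≤ _ := sum_le_sum_of_subset_of_nonneg sdiff_subset fun _ _ _ => Nat.cast_nonneg _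
      have h5 : (T : ℝ) ≤ 2 * (range T \ Ib b).card := by
        have h7 : Ib b ⊆ range T := filter_subset _ _
        rw [card_sdiff_of_subset h7, card_range]
        have : (Ib b).card ≤ T := by simpa using card_le_card h7
        exact_mod_cast (by omega)
      have h6 : 1 ≤ 2 / (K₀ * π.M * π.ρw) *
          ∑ h : Fin π.M, if surv π.A b (h + 1) then (1 : ℝ) else 0 := by
        have hM' : (π.M : ℝ) = T * H := by rw [hM]; push_cast; ring
        rw [hM', div_mul_eq_mul_div, le_div_iff₀ (by positivity)]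
        have : T * (K₀ * H * π.ρw) ≤ 2 * (range T \ Ib b).card * (K₀ * H * π.ρw) := by gcongr
        nlinarith
      have : 0 ≤ 4 * D ^ 2 / (k + 1) + 32 * Real.exp (15 * (D * 2 ^ k)) / T := by positivity
      linarith
  have hP : (0 : ℝ) < (∏ p ∈ π.A, p : ℕ) := by
    exact_mod_cast prod_pos fun p hp => (π.hA p hp).pos
  have hM' : (0 : ℝ) < π.M := by exact_mod_cast π.hM
  have h3 : (∑ b ∈ resSet π.A, Ex (indW π.M π.B) (F b)) / (∏ p ∈ π.A, p : ℕ) ≤
      4 * D ^ 2 / (k + 1) + 32 * Real.exp (15 * (D * 2 ^ k)) / T + 2 / K₀ := by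
    rw [div_le_iff₀ hP]
    refine (sum_le_sum fun b _ => h2 b).trans ?_
    rw [sum_add_distrib, sum_const, card_resSet, nsmul_eq_mul, ← mul_sum, sum_comm]
    have h4 : ∑ h : Fin π.M, ∑ b ∈ resSet π.A, (if surv π.A b (h + 1) then (1 : ℝ) else 0) ≤
        π.M * ((∏ p ∈ π.A, p : ℕ) * π.ρw) := by
      calc _ ≤ ∑ h : Fin π.M, ((∏ p ∈ π.A, p : ℕ) * π.ρw) := by
            refine sum_le_sum fun h _ => ?_
            have := card_surv_le π.hA (h + 1)
            rw [card_filter] at this; push_cast at this ⊢; exact this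
        _ = _ := by simp
    have h5 : 2 / (K₀ * π.M * π.ρw) * ∑ h : Fin π.M, ∑ b ∈ resSet π.A,
        (if surv π.A b (h + 1) then (1 : ℝ) else 0) ≤ 2 / K₀ * (∏ p ∈ π.A, p : ℕ) := by
      calc _ ≤ 2 / (K₀ * π.M * π.ρw) * (π.M * ((∏ p ∈ π.A, p : ℕ) * π.ρw)) := by gcongr
        _ = _ := by field_simp
    linarith
  refine h1.trans (htr.trans ?_)
  gcongr

theorem pair_bound (X : ℕ) :
    ∑ n ∈ range X, ∑ h : Fin π.M, ∑ h' : Fin π.M, (if h < h' ∧
        ((n + (h + 1)).Prime ∧ yy π.m (π.I + 1) < n + (h + 1)) ∧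
        ((n + (h' + 1)).Prime ∧ yy π.m (π.I + 1) < n + (h' + 1)) then (1 : ℝ) else 0) ≤
      X * (2 * (3 * π.M ^ 2 * (C6 / π.U) ^ 2)) +
        2 * (((∏ p ∈ π.A, p : ℕ) : ℝ) ^ 2 * (π.M ^ 2 * Real.exp (36 * π.U))) := by
  classical
  let F : (π.A → ℕ) → (Fin π.M → π.B → Bool) → ℝ := fun b ω =>
    ∑ h : Fin π.M, ∑ h' : Fin π.M,
      (if h < h' ∧ surv π.A b (h + 1) ∧ surv π.A b (h' + 1) then (1 : ℝ) else 0) *
        (π.s.Lam π.I (ω h) ^ 2 * π.s.Lam π.I (ω h') ^ 2)
  have hF0 : ∀ b ω, 0 ≤ F b ω := fun b ω =>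
    sum_nonneg fun _ _ => sum_nonneg fun _ _ => by split_ifs <;> positivity
  have hlow : ∀ b, Low π.Q (fun n => F b (om π.M π.B n)) (π.M ^ 2 * Real.exp (36 * π.U)) := by
    intro b
    have := Low.sum univ fun (h : Fin π.M) _ => Low.sum univ fun (h' : Fin π.M) _ =>
      (((π.low_Lam le_rfl h).sq π.Q_pos).mul π.Q_pos ((π.low_Lam le_rfl h').sq π.Q_pos)).const_mul
        π.Q_pos (if h < h' ∧ surv π.A b (h + 1) ∧ surv π.A b (h' + 1) then (1 : ℝ) else 0)
    refine this.mono ?_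
    calc _ ≤ ∑ h : Fin π.M, ∑ h' : Fin π.M, Real.exp (36 * π.U) := by
          refine sum_le_sum fun h _ => sum_le_sum fun h' _ => ?_
          have e : Real.exp (9 * (2 ^ π.I * π.u₀)) ^ 2 * Real.exp (9 * (2 ^ π.I * π.u₀)) ^ 2 =
              Real.exp (36 * π.U) := by
            rw [← pow_add, ← Real.exp_nat_mul, U]; congr 1; push_cast; ring
          rw [e]
          split_ifs <;> simp [(Real.exp_pos _).le]
      _ = _ := by simp; ring
  have htr := transfer π.hA π.hB π.hAB π.hM π.hy π.hBy F hF0 hlow X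
  have hprob : IsProb π.s.μ := π.s.prob
  have h2 : ∀ b, Ex (indW π.M π.B) (F b) ≤ ∑ h : Fin π.M, ∑ h' : Fin π.M,
      (if h < h' ∧ surv π.A b (h + 1) ∧ surv π.A b (h' + 1) then (1 : ℝ) else 0) *
        π.gam π.I ^ 2 := by
    intro b
    simp only [F]
    rw [Ex_sum]
    refine sum_le_sum fun h _ => ?_
    rw [Ex_sum]
    refine sum_le_sum fun h' _ => ?_
    rw [Ex_const_mul]
    split_ifs with hh
    · rw [one_mul, one_mul]
      have e := Ex_piW_prod_finset (μ := fun _ : Fin π.M => π.s.μ) (fun _ => hprob) {h, h'}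
        (fun _ x => π.s.Lam π.I x ^ 2)
      simp only [prod_pair hh.1.ne] at e
      refine (le_of_eq e).trans ?_
      have h3 : Ex π.s.μ (fun x => π.s.Lam π.I x ^ 2) ≤ π.gam π.I :=
        π.s.Ex_Lam_sq (by norm_num) _ (π.ms_ge le_rfl)
      have h4 : 0 ≤ Ex π.s.μ (fun x => π.s.Lam π.I x ^ 2) := hprob.Ex_nonneg fun _ => sq_nonneg _
      nlinarith
    · simp
  have hP : (0 : ℝ) < (∏ p ∈ π.A, p : ℕ) := by
    exact_mod_cast prod_pos fun p hp => (π.hA p hp).pos
  have h3 : (∑ b ∈ resSet π.A, Ex (indW π.M π.B) (F b)) / (∏ p ∈ π.A, p : ℕ) ≤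
      3 * π.M ^ 2 * (C6 / π.U) ^ 2 := by
    rw [div_le_iff₀ hP]
    refine (sum_le_sum fun b _ => h2 b).trans ?_
    rw [sum_comm]
    have h4 : ∀ h : Fin π.M, ∑ b ∈ resSet π.A, ∑ h' : Fin π.M,
        (if h < h' ∧ surv π.A b (h + 1) ∧ surv π.A b (h' + 1) then (1 : ℝ) else 0) *
          π.gam π.I ^ 2 ≤ (∏ p ∈ π.A, p : ℕ) * (π.ρw * π.gam π.I) ^ 2 * (3 * π.M) := by
      intro h
      rw [sum_comm]
      calc _ ≤ ∑ h' : Fin π.M, (∏ p ∈ π.A, p : ℕ) * (π.ρw * π.gam π.I) ^ 2 *
            (if h < h' then sing π.A (h' - h) else 0) := by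
            refine sum_le_sum fun h' _ => ?_
            by_cases hh : h < h'
            · simp only [hh, true_and, if_true]
              have := card_surv_pair_le π.hA (h + 1) (h' - h)
              have e : (h : ℕ) + 1 + (h' - h) = h' + 1 := by
                have : (h : ℕ) < h' := hh
                omega
              rw [card_filter, e] at this
              push_cast at this
              rw [← sum_mul]
              calc _ ≤ ((∏ p ∈ π.A, (p : ℝ)) * (π.ρw ^ 2 * sing π.A (h' - h))) * π.gam π.I ^ 2 := by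
                    gcongr; exact this
                _ = _ := by push_cast; ring
            · simp [hh]
        _ ≤ _ := by
            rw [← mul_sum]
            gcongr
            refine le_trans ?_ (sum_sing_le π.hA π.M)
            rw [← sum_filter, ← sum_image (s := univ.filter fun h' : Fin π.M => h < h')
              (g := fun h' : Fin π.M => (h' : ℕ) - h) (f := fun d => sing π.A d)]
            · refine sum_le_sum_of_subset_of_nonneg (fun d hd => ?_)
                fun d _ _ => sing_nonneg π.hA d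
              obtain ⟨h', hh', rfl⟩ := mem_image.mp hd
              have h5 : (h : ℕ) < h' := (mem_filter.mp hh').2
              have := h'.2
              rw [mem_Ioc]; omega
            · intro x hx y hy hxy
              have h5 : (h : ℕ) < x := (mem_filter.mp hx).2
              have h6 : (h : ℕ) < y := (mem_filter.mp hy).2
              simp only at hxy
              exact Fin.ext (by omega)
    have h5 : π.ρw * π.gam π.I ≤ C6 / π.U := π.ρw_gam le_rfl
    have h6 : 0 ≤ π.ρw * π.gam π.I := mul_nonneg π.ρw_pos.le (π.gam_nonneg _)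
    calc _ ≤ ∑ h : Fin π.M, (∏ p ∈ π.A, p : ℕ) * (π.ρw * π.gam π.I) ^ 2 * (3 * π.M) :=
          sum_le_sum fun h _ => h4 h
      _ = π.M * ((∏ p ∈ π.A, p : ℕ) * (π.ρw * π.gam π.I) ^ 2 * (3 * π.M)) := by simp
      _ ≤ π.M * ((∏ p ∈ π.A, p : ℕ) * (C6 / π.U) ^ 2 * (3 * π.M)) := by gcongr
      _ = _ := by ring
  refine le_trans (sum_le_sum fun n _ => ?_) (htr.trans ?_)
  · refine sum_le_sum fun h _ => sum_le_sum fun h' _ => ?_
    split_ifs with h1 h2 h2
    · rw [π.s.Lam_of_none _ (π.om_of_prime h1.2.1.1 h1.2.1.2),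
        π.s.Lam_of_none _ (π.om_of_prime h1.2.2.1 h1.2.2.2)]; norm_num
    · exact absurd ⟨h1.1, π.surv_of_prime h1.2.1.1 h1.2.1.2, π.surv_of_prime h1.2.2.1 h1.2.2.2⟩ h2
    · positivity
    · simp
  · gcongr

end Par

end Crest.Agent.PrimeGap
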