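import Mathlib
import Crest.Agent.PrimeGap.Bounds

/-! Assembly. -/

set_option autoImplicit false

namespace Crest.Agent.PrimeGap

open Finset Filter

lemma sq_sum_ind {M : ℕ} (P : Fin M → Prop) [DecidablePred P] :
    (∑ h, if P h then (1 : ℝ) else 0) ^ 2 = (∑ h, if P h then (1 : ℝ) else 0) +
      2 * ∑ h, ∑ h', if h < h' ∧ P h ∧ P h' then (1 : ℝ) else 0 := by
  have e1 : ∑ h, ∑ h', (if h' < h ∧ P h ∧ P h' then (1 : ℝ) else 0) =
      ∑ h, ∑ h', if h < h' ∧ P h ∧ P h' then (1 : ℝ) else 0 := by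
    rw [sum_comm]
    refine sum_congr rfl fun h _ => sum_congr rfl fun h' _ => ?_
    simp only [and_comm (a := P h')]
  have e2 : (∑ h, if P h then (1 : ℝ) else 0) =
      ∑ h, ∑ h', if h = h' then (if P h then (1 : ℝ) else 0) else 0 := by simp
  rw [two_mul, sq, sum_mul_sum]
  nth_rewrite 1 [← e1]
  rw [e2, ← sum_add_distrib, ← sum_add_distrib]
  refine sum_congr rfl fun h _ => ?_
  rw [← sum_add_distrib, ← sum_add_distrib]
  refine sum_congr rfl fun h' _ => ?_
  rcases lt_trichotomy h h' with hh | hh | hh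
  · by_cases h1 : P h <;> by_cases h2 : P h' <;> simp [h1, h2, hh, hh.ne, hh.not_gt]
  · subst hh; by_cases h1 : P h <;> simp [h1]
  · by_cases h1 : P h <;> by_cases h2 : P h' <;> simp [h1, h2, hh, hh.ne', hh.not_gt]

lemma first_moment {M y X : ℕ} (hMy : M ≤ y) :
    M * ((Nat.primeCounting X : ℝ) - y) ≤ ∑ n ∈ range X, ∑ h : Fin M,
      if (n + (h + 1)).Prime ∧ y < n + (h + 1) then (1 : ℝ) else 0 := by
  rw [sum_comm]
  have h1 : (Nat.primeCounting X : ℝ) - y ≤ (primesIn y X).card := by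
    have h2 : Nat.primeCounting X ≤ y + (primesIn y X).card := by
      rw [Nat.primeCounting, Nat.primeCounting', Nat.count_eq_card_filter_range]
      calc _ ≤ (Ioc 0 y ∪ primesIn y X).card := by
            refine card_le_card fun p hp => ?_
            simp only [mem_filter, mem_range] at hp
            simp only [mem_union, mem_Ioc, mem_primesIn]
            by_cases h : p ≤ y
            · exact Or.inl ⟨hp.2.pos, h⟩
            · exact Or.inr ⟨⟨by omega, by omega⟩, hp.2⟩
        _ ≤ _ := (card_union_le _ _).trans (by simp)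
    have : (Nat.primeCounting X : ℝ) ≤ y + (primesIn y X).card := by exact_mod_cast h2
    linarith
  calc M * ((Nat.primeCounting X : ℝ) - y) = ∑ h : Fin M, ((Nat.primeCounting X : ℝ) - y) := by
        rw [sum_const, card_univ, Fintype.card_fin, nsmul_eq_mul]
    _ ≤ _ := by
        refine sum_le_sum fun h _ => h1.trans ?_
        rw [← sum_filter, sum_const, nsmul_eq_mul, mul_one]
        have hh := h.2
        have : (primesIn y X).card ≤
            ((range X).filter fun n : ℕ => (n + ((h : ℕ) + 1)).Prime ∧ y < n + ((h : ℕ) + 1)).card := by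
          refine card_le_card_of_injOn (fun p : ℕ => p - ((h : ℕ) + 1)) (fun p hp => ?_) ?_
          · have hp' := mem_primesIn.mp hp
            have e : p - (h + 1) + (h + 1) = p := by omega
            simp only [coe_filter, mem_range, Set.mem_ofPred_eq, e]
            exact ⟨by omega, hp'.2, hp'.1.1⟩
          · intro p hp q hq hpq
            have hp' := mem_primesIn.mp hp
            have hq' := mem_primesIn.mp hq
            simp only at hpq
            omega
        exact_mod_cast this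

lemma support_ge {X : ℕ} (N : ℕ → ℝ) {a b : ℝ} (ha : 0 < a) (hb : 0 ≤ b)
    (h1 : a ≤ ∑ n ∈ range X, N n) (h2 : ∑ n ∈ range X, N n ^ 2 ≤ ∑ n ∈ range X, N n + b) :
    a ^ 2 / (a + b) ≤ (((range X).filter fun n => N n ≠ 0).card : ℝ) := by
  set e : ℝ := (((range X).filter fun n => N n ≠ 0).card : ℝ)
  set s := ∑ n ∈ range X, N n with hs
  have h3 : s ^ 2 ≤ e * (s + b) := by
    have h4 := sq_sum_le_card_mul_sum_sq (s := (range X).filter fun n => N n ≠ 0) (f := N)
    rw [sum_filter_ne_zero] at h4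
    refine h4.trans (mul_le_mul_of_nonneg_left (le_trans ?_ h2) (Nat.cast_nonneg _))
    exact sum_le_sum_of_subset_of_nonneg (filter_subset _ _) fun _ _ _ => sq_nonneg _
  have he : 0 ≤ e := Nat.cast_nonneg _
  have hs0 : 0 < s := lt_of_lt_of_le ha h1
  rw [div_le_iff₀ (by linarith)]
  have h5 : a ^ 2 * (s + b) ≤ s ^ 2 * (a + b) := by
    have : a * s * a ≤ a * s * s := by gcongr
    have : a ^ 2 * b ≤ s ^ 2 * b := by gcongr
    nlinarith
  have h6 : a ^ 2 * (s + b) ≤ e * (a + b) * (s + b) := by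
    refine h5.trans ?_
    calc s ^ 2 * (a + b) ≤ e * (s + b) * (a + b) := by gcongr
      _ = _ := by ring
  exact le_of_mul_le_mul_right h6 (by linarith)

/-- indices of primes below `Y` followed by a gap larger than `H` -/
noncomputable def gaps (H Y : ℕ) : Finset ℕ :=
  (range (Nat.count Nat.Prime Y)).filter fun k => Nat.nth Nat.Prime k + H < Nat.nth Nat.Prime (k + 1)

lemma count_gaps {T H X y : ℕ} (hM : T * H ≤ X) (E1 : Finset ℕ) (hE : E1 ⊆ range X)
    (hE1 : ∀ n ∈ E1, ∃ a ∈ Ioc 0 (T * H), (n + a).Prime) :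
    E1.card ≤ T * H + y + ((range X).filter fun n => y ≤ n ∧
        ∀ i < T, ∃ a ∈ Ioc (i * H) ((i + 1) * H), (n + a).Prime).card +
      (gaps H (2 * X)).card * (2 * (T * H)) := by
  classical
  set M := T * H with hMdef
  set bad := (range X).filter fun n => y ≤ n ∧
        ∀ i < T, ∃ a ∈ Ioc (i * H) ((i + 1) * H), (n + a).Prime with hbad
  have hinf : (Set.ofPred Nat.Prime).Infinite := Nat.infinite_setOfPred_prime
  have hA : ∀ a b, a < Nat.count Nat.Prime b ↔ Nat.nth Nat.Prime a < b :=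
    fun a b => Nat.lt_nth_iff_count_lt hinf
  have hB : ∀ a b, Nat.count Nat.Prime a ≤ b ↔ a ≤ Nat.nth Nat.Prime b :=
    fun a b => Nat.count_le_iff_le_nth hinf
  have hsub : E1 ⊆ ((Ico (X - M) X ∪ range y) ∪ bad.image (fun n => n - M)) ∪
      (gaps H (2 * X)).biUnion fun k => Ico (Nat.nth Nat.Prime k - 2 * M) (Nat.nth Nat.Prime k) := by
    intro n hn
    have hnX := mem_range.mp (hE hn)
    simp only [mem_union, mem_Ico, mem_range, mem_image, mem_biUnion]
    by_cases h1 : X - M ≤ n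
    · exact Or.inl (Or.inl (Or.inl ⟨h1, hnX⟩))
    by_cases h2 : n < y
    · exact Or.inl (Or.inl (Or.inr h2))
    by_cases h3 : n + M ∈ bad
    · exact Or.inl (Or.inr ⟨n + M, h3, by omega⟩)
    right
    simp only [hbad, mem_filter, mem_range, not_and, not_forall, not_exists] at h3
    obtain ⟨i, hi, hno⟩ := h3 (by omega) (by omega)
    obtain ⟨a, ha, hp⟩ := hE1 n hn
    rw [mem_Ioc] at ha
    have hiH : i * H ≤ M := Nat.mul_le_mul_right _ hi.le
    set z := n + M + i * H with hz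
    set c := Nat.count Nat.Prime (z + 1) with hc
    have hj : Nat.count Nat.Prime (n + a) < c := by
      rw [hc, hA, Nat.nth_count hp]; omega
    have h4 : Nat.nth Nat.Prime (c - 1) < z + 1 := by
      rw [← hA]; omega
    have h5 : z + 1 ≤ Nat.nth Nat.Prime (c - 1 + 1) := by
      rw [← hB]; omega
    have h6 : n + a ≤ Nat.nth Nat.Prime (c - 1) := by
      rw [← hB]; omega
    refine ⟨c - 1, ?_, by omega, by omega⟩
    simp only [gaps, mem_filter, mem_range]
    refine ⟨?_, ?_⟩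
    · rw [hA]; omega
    · by_contra hle
      have h7 := hno (Nat.nth Nat.Prime (c - 1 + 1) - (n + M)) (by
        have : (i + 1) * H = i * H + H := by ring
        rw [mem_Ioc]; omega)
      apply h7
      have : n + M + (Nat.nth Nat.Prime (c - 1 + 1) - (n + M)) = Nat.nth Nat.Prime (c - 1 + 1) := by
        omega
      rw [this]; exact Nat.prime_nth_prime _
  refine (card_le_card hsub).trans ((card_union_le _ _).trans (add_le_add ?_ ?_))
  · refine (card_union_le _ _).trans (add_le_add ?_ card_image_le)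
    refine (card_union_le _ _).trans (add_le_add ?_ (by simp))
    rw [Nat.card_Ico]; omega
  · refine card_biUnion_le_card_mul _ _ _ fun k _ => ?_
    rw [Nat.card_Ico]; omega

lemma ev_exp (K : ℝ) {c : ℝ} (hc : 0 < c) : ∀ᶠ l : ℝ in atTop, K * l ^ 2 ≤ Real.exp (c * l) := by
  have h := (tendsto_exp_mul_div_rpow_atTop 2 c hc).eventually_ge_atTop K
  filter_upwards [h, eventually_gt_atTop 0] with l h1 h2
  rw [le_div_iff₀ (by positivity)] at h1
  simpa using h1

lemma ev_log {K : ℝ} (hK : 0 < K) : ∀ᶠ l : ℝ in atTop, K * Real.log l ≤ l := by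
  have h := Real.isLittleO_log_id_atTop.bound (c := 1 / K) (by positivity)
  filter_upwards [h, eventually_ge_atTop 1] with l h1 h2
  simp only [id, Real.norm_eq_abs] at h1
  rw [abs_of_nonneg (Real.log_nonneg h2), abs_of_nonneg (by linarith)] at h1
  calc K * Real.log l ≤ K * (1 / K * l) := by gcongr
    _ = l := by field_simp

lemma prod_A_le (w : ℕ) : ∏ p ∈ primesIn 0 w, p ≤ 4 ^ w := by
  refine le_trans (le_of_eq ?_) (primorial_le_four_pow w)
  unfold primorial
  congr 1; ext p; simp only [mem_primesIn, mem_filter, mem_range]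
  constructor
  · rintro ⟨h1, h2⟩; exact ⟨by omega, h2⟩
  · rintro ⟨h1, h2⟩; exact ⟨⟨h2.pos, by omega⟩, h2⟩

/-- existence of parameters for large `l` -/
lemma exists_par {l : ℝ} {M k : ℕ} (hM : 1 ≤ M) (h1 : 160 ≤ l) (h2 : 4 * (M : ℝ) ^ 2 ≤ (l / 40) ^ 4)
    (h3 : 2 ^ k * 360 * 8 * Real.log l ≤ l) :
    ∃ π : Par, π.M = M ∧ k ≤ π.I ∧ 360 * π.U ≤ l ∧ l ≤ 720 * π.U ∧
      ((∏ p ∈ π.A, p : ℕ) : ℝ) ^ 2 ≤ Real.exp (3 / 10 * l) := by
  set m := Nat.log 4 ⌊l / 10⌋₊ with hm
  have hf : ⌊l / 10⌋₊ ≠ 0 := by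
    rw [Ne, Nat.floor_eq_zero]; linarith
  have hw1 : ((4 ^ m : ℕ) : ℝ) ≤ l / 10 :=
    le_trans (by exact_mod_cast Nat.pow_log_le_self 4 hf) (Nat.floor_le (by linarith))
  have hw2 : l / 40 < ((4 ^ m : ℕ) : ℝ) := by
    have h4 := Nat.lt_pow_succ_log_self (b := 4) (by norm_num) ⌊l / 10⌋₊
    have h5 := Nat.lt_floor_add_one (l / 10)
    have h6 : ((⌊l / 10⌋₊ + 1 : ℕ) : ℝ) ≤ (4 ^ (m + 1) : ℕ) := by exact_mod_cast h4
    push_cast at h6 ⊢
    rw [pow_succ] at h6; linarith
  have hm2 : 2 ≤ m := by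
    have : ((4 ^ 1 : ℕ) : ℝ) < (4 ^ m : ℕ) := by push_cast at hw2 ⊢; linarith
    have h7 : 4 ^ 1 < 4 ^ m := by exact_mod_cast this
    exact (Nat.pow_lt_pow_iff_right (by norm_num)).mp h7
  have hy : 4 * M ^ 2 ≤ yy m 0 := by
    have e : yy m 0 = (4 ^ m) ^ 4 := by unfold yy; rw [← pow_mul]; congr 1; ring
    have : ((4 * M ^ 2 : ℕ) : ℝ) ≤ (((4 ^ m) ^ 4 : ℕ) : ℝ) := by
      push_cast at hw2 ⊢
      refine h2.trans (pow_le_pow_left₀ (by linarith) hw2.le 4)
    rw [e]; exact_mod_cast this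
  set u : ℝ := 8 * m * Real.log 4 with hu
  have hu0 : 0 < u := by
    have := Par.log4_pos
    have : (2 : ℝ) ≤ m := by exact_mod_cast hm2
    positivity
  have hul : u ≤ 8 * Real.log l := by
    have : Real.log ((4 ^ m : ℕ) : ℝ) ≤ Real.log l := Real.log_le_log (by positivity) (by linarith)
    push_cast at this
    rw [Real.log_pow] at this
    rw [hu]; linarith
  have hk : 2 ^ k ≤ ⌊l / (360 * u)⌋₊ := by
    apply Nat.le_floor
    push_cast
    rw [le_div_iff₀ (by positivity)]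
    calc (2 : ℝ) ^ k * (360 * u) ≤ 2 ^ k * (360 * (8 * Real.log l)) := by gcongr
      _ ≤ l := by linarith
  have hf2 : ⌊l / (360 * u)⌋₊ ≠ 0 := by
    have : 0 < 2 ^ k := by positivity
    omega
  refine ⟨⟨m, Nat.log 2 ⌊l / (360 * u)⌋₊, M, hm2, hM, hy⟩, rfl, ?_, ?_, ?_, ?_⟩
  · exact Nat.le_log_of_pow_le (by norm_num) hk
  · have h4 : ((2 ^ Nat.log 2 ⌊l / (360 * u)⌋₊ : ℕ) : ℝ) ≤ l / (360 * u) :=
      le_trans (by exact_mod_cast Nat.pow_log_le_self 2 hf2) (Nat.floor_le (by positivity))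
    push_cast at h4
    rw [le_div_iff₀ (by positivity)] at h4
    simp only [Par.U, Par.u₀]; linarith
  · have h4 := Nat.lt_pow_succ_log_self (b := 2) (by norm_num) ⌊l / (360 * u)⌋₊
    have h5 := Nat.lt_floor_add_one (l / (360 * u))
    have h6 : ((⌊l / (360 * u)⌋₊ + 1 : ℕ) : ℝ) ≤ (2 ^ (Nat.log 2 ⌊l / (360 * u)⌋₊ + 1) : ℕ) := by
      exact_mod_cast h4
    push_cast at h6
    have h7 := h5.le.trans h6
    rw [div_le_iff₀ (by positivity), pow_succ] at h7
    simp only [Par.U, Par.u₀]; linarith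
  · have h4 : ((∏ p ∈ primesIn 0 (4 ^ m), p : ℕ) : ℝ) ≤ 4 ^ (4 ^ m) := by
      exact_mod_cast prod_A_le (4 ^ m)
    have h5 : (4 : ℝ) ^ (4 ^ m) = Real.exp ((4 ^ m : ℕ) * Real.log 4) := by
      rw [Real.exp_nat_mul, Real.exp_log (by norm_num)]
    have h6 : Real.log 4 ≤ 3 / 2 := by
      have : Real.log 4 = 2 * Real.log 2 := by
        rw [show (4 : ℝ) = 2 ^ 2 by norm_num, Real.log_pow]; norm_num
      have := Real.log_two_lt_d9
      linarith
    simp only [Par.A]
    calc _ ≤ ((4 : ℝ) ^ (4 ^ m)) ^ 2 := by gcongr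
      _ = Real.exp (2 * ((4 ^ m : ℕ) * Real.log 4)) := by rw [h5, ← Real.exp_nat_mul]; norm_num
      _ ≤ _ := by
          apply Real.exp_le_exp.mpr
          have : ((4 ^ m : ℕ) : ℝ) * Real.log 4 ≤ l / 10 * (3 / 2) := by
            have := Par.log4_pos
            gcongr
          linarith

end Crest.Agent.PrimeGap
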