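import Mathlib
import Crest.Agent.PrimeGap.Main

/-! Positive density of large gaps. -/

set_option autoImplicit false

namespace Crest.Agent.PrimeGap

open Finset Filter

noncomputable def C5 : ℝ := 6 * (720 * Par.C6) ^ 2

noncomputable def c0 : ℝ := 1 / (16 * (1 / 4 + 2 * (C5 + 1)))

lemma C5_nonneg : 0 ≤ C5 := by unfold C5; positivity

lemma c0_pos : 0 < c0 := by unfold c0; have := C5_nonneg; positivity

lemma c0_le : c0 ≤ 1 := by
  unfold c0; have := C5_nonneg; rw [div_le_one (by positivity)]; linarith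

/-- many blocks contain a prime -/
lemma support_lower (π : Par) {X : ℕ} {l : ℝ} (hl : Real.exp l = X) (h1 : 1 ≤ l) (hM : l ≤ π.M)
    (hU1 : 360 * π.U ≤ l) (hU2 : l ≤ 720 * π.U)
    (hP : ((∏ p ∈ π.A, p : ℕ) : ℝ) ^ 2 ≤ Real.exp (3 / 10 * l))
    (e4 : 2 * l ^ 2 ≤ Real.exp (6 / 10 * l)) (e7 : 4 * l ^ 2 ≤ Real.exp (1 / 2 * l))
    (e8 : 11 * l ^ 2 ≤ Real.exp (1 * l)) :
    c0 * X ≤ (((range X).filter fun n => ∃ a ∈ Ioc 0 π.M, (n + a).Prime).card : ℝ) := by
  classical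
  set y := yy π.m (π.I + 1) with hy
  have hX : (0 : ℝ) < X := hl ▸ Real.exp_pos l
  have hl0 : 0 < l := by linarith
  have hlog : Real.log X = l := by rw [← hl, Real.log_exp]
  have hyU : (y : ℝ) = Real.exp π.U := (π.exp_u π.I).symm
  have hU := π.U_pos
  have hMy : π.M ≤ y := by
    have h2 := π.hy
    have h3 := yy_mono π.m (Nat.zero_le (π.I + 1))
    have h4 := π.hM
    nlinarith
  let N : ℕ → ℝ := fun n => ∑ h : Fin π.M,
    if (n + (h + 1)).Prime ∧ y < n + (h + 1) then (1 : ℝ) else 0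
  set μ := π.M / l with hμ
  have hμ1 : 1 ≤ μ := by rw [hμ, le_div_iff₀ hl0]; linarith
  have hpi : X / (2 * l) ≤ Nat.primeCounting X := by
    refine le_trans ?_ (Chebyshev.pi_ge X)
    rw [hlog, div_le_div_iff₀ (by positivity) hl0]
    have h2 : Real.log (X + 1) ≤ l + 1 := by
      have h3 : (X : ℝ) + 1 ≤ Real.exp (l + 1) := by
        rw [Real.exp_add, hl]
        have := Real.add_one_le_exp 1
        have : 1 ≤ Real.exp l := Real.one_le_exp hl0.le
        nlinarith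
      have := Real.log_le_log (by positivity) h3
      rwa [Real.log_exp] at this
    have h4 := Real.log_two_gt_d9
    rw [one_mul, hl] at e8
    have h5 : (X : ℝ) / 2 ≤ X * Real.log 2 - Real.log (X + 1) := by nlinarith
    nlinarith
  have hy2 : (y : ℝ) ≤ X / (4 * l) := by
    rw [hyU, le_div_iff₀ (by positivity), ← hl]
    calc Real.exp π.U * (4 * l) ≤ Real.exp (1 / 2 * l) * (4 * l ^ 2) := by
          gcongr
          · linarith
          · nlinarith
      _ ≤ Real.exp (1 / 2 * l) * Real.exp (1 / 2 * l) := by gcongr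
      _ = _ := by rw [← Real.exp_add]; congr 1; ring
  have ha : X * μ / 4 ≤ ∑ n ∈ range X, N n := by
    refine le_trans ?_ (first_moment hMy)
    have : (X : ℝ) / (2 * l) = 2 * (X / (4 * l)) := by field_simp; norm_num
    calc X * μ / 4 = π.M * (X / (4 * l)) := by rw [hμ]; field_simp
      _ ≤ _ := by gcongr; linarith
  have hb : ∑ n ∈ range X, N n ^ 2 ≤ ∑ n ∈ range X, N n + 2 * (C5 + 1) * X * μ ^ 2 := by
    have h2 := π.pair_bound X
    simp only [N, sq_sum_ind, sum_add_distrib, ← mul_sum]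
    have h3 : (X : ℝ) * (2 * (3 * π.M ^ 2 * (Par.C6 / π.U) ^ 2)) ≤ C5 * X * μ ^ 2 := by
      have h4 : Par.C6 / π.U ≤ 720 * Par.C6 / l := by
        have := Par.C6_pos
        rw [div_le_div_iff₀ hU hl0]; nlinarith
      have := Par.C6_pos
      calc (X : ℝ) * (2 * (3 * π.M ^ 2 * (Par.C6 / π.U) ^ 2))
          ≤ X * (2 * (3 * π.M ^ 2 * (720 * Par.C6 / l) ^ 2)) := by gcongr
        _ = _ := by rw [C5, hμ]; field_simp; ring
    have h4 : 2 * (((∏ p ∈ π.A, p : ℕ) : ℝ) ^ 2 * (π.M ^ 2 * Real.exp (36 * π.U))) ≤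
        X * μ ^ 2 := by
      have h5 : Real.exp (36 * π.U) ≤ Real.exp (1 / 10 * l) := Real.exp_le_exp.mpr (by linarith)
      calc _ ≤ 2 * (Real.exp (3 / 10 * l) * (π.M ^ 2 * Real.exp (1 / 10 * l))) := by
            gcongr
        _ = (2 * l ^ 2) * Real.exp (4 / 10 * l) * μ ^ 2 := by
            rw [show 4 / 10 * l = 3 / 10 * l + 1 / 10 * l by ring, Real.exp_add, hμ]; field_simp
        _ ≤ Real.exp (6 / 10 * l) * Real.exp (4 / 10 * l) * μ ^ 2 := by gcongr
        _ = _ := by rw [← Real.exp_add, ← hl]; congr 2; ring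
    linarith
  have h5 := support_ge N (by positivity) (by have := C5_nonneg; positivity) ha hb
  have h6 : c0 * X ≤ (X * μ / 4) ^ 2 / (X * μ / 4 + 2 * (C5 + 1) * X * μ ^ 2) := by
    have := C5_nonneg
    calc c0 * X = (X * μ / 4) ^ 2 / (X * μ ^ 2 / 4 + 2 * (C5 + 1) * X * μ ^ 2) := by
          rw [c0]; field_simp; ring
      _ ≤ _ := by gcongr; nlinarith
  refine h6.trans (h5.trans ?_)
  gcongr with n
  intro hn
  obtain ⟨h, _, hh⟩ := exists_ne_zero_of_sum_ne_zero hn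
  have := h.2
  refine ⟨h + 1, mem_Ioc.mpr ⟨by omega, by omega⟩, ?_⟩
  by_contra hp
  simp [hp] at hh

lemma aux_H {C l T : ℝ} {H : ℕ} (hC : 1 ≤ C) (e1 : 160 ≤ l) (hT : 1 ≤ T) (hH : H = ⌈C * (l + 1)⌉₊)
    (e2 : 9600 * C * T ≤ l) :
    C * (l + 1) ≤ H ∧ (H : ℝ) ≤ 3 * C * l ∧ l ≤ H ∧ T * H ≤ 3 * C * T * l ∧ l ≤ T * H ∧
      4 * (T * H) ^ 2 ≤ (l / 40) ^ 4 := by
  have hH1 : C * (l + 1) ≤ H := hH ▸ Nat.le_ceil _
  have hH2 : (H : ℝ) ≤ 3 * C * l := by
    have := Nat.ceil_lt_add_one (a := C * (l + 1)) (by positivity)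
    rw [← hH] at this
    nlinarith
  have hH3 : l ≤ H := by nlinarith
  have hM2 : T * H ≤ 3 * C * T * l := by nlinarith
  refine ⟨hH1, hH2, hH3, hM2, by nlinarith, ?_⟩
  have h1 : 4 * (T * H) ^ 2 ≤ 4 * (3 * C * T * l) ^ 2 := by gcongr
  have h2 : (9600 * C * T) ^ 2 ≤ l ^ 2 := by gcongr
  nlinarith [sq_nonneg l]

lemma aux_M {C l T X M : ℝ} (hC : 1 ≤ C) (e1 : 160 ≤ l) (hT : 1 ≤ T) (hM : M ≤ 3 * C * T * l)
    (e6 : 24 * C * T / c0 * l ^ 2 ≤ X) : M ≤ c0 * X / 8 := by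
  rw [div_mul_eq_mul_div, div_le_iff₀ c0_pos] at e6
  have : 24 * C * T * l ≤ 24 * C * T * l ^ 2 := by gcongr; nlinarith
  linarith

lemma aux_y {l U : ℝ} (e1 : 160 ≤ l) (hU1 : 360 * U ≤ l)
    (e7 : 8 / c0 * l ^ 2 ≤ Real.exp (1 / 2 * l)) : Real.exp U ≤ c0 * Real.exp l / 8 := by
  rw [div_mul_eq_mul_div, div_le_iff₀ c0_pos] at e7
  have h1 : Real.exp U ≤ Real.exp (1 / 2 * l) := by
    apply Real.exp_le_exp.mpr; linarith
  have h2 : Real.exp l = Real.exp (1 / 2 * l) * Real.exp (1 / 2 * l) := by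
    rw [← Real.exp_add]; congr 1; ring
  have h3 : 8 ≤ Real.exp (1 / 2 * l) * c0 := by nlinarith
  rw [h2]; nlinarith [Real.exp_pos (1 / 2 * l)]

lemma aux_err {C l T M U P : ℝ} (hC : 1 ≤ C) (e1 : 160 ≤ l) (hT : 1 ≤ T) (hM0 : 0 ≤ M)
    (hM : M ≤ 3 * C * T * l) (hU1 : 360 * U ≤ l) (hP : P ≤ Real.exp (3 / 10 * l))
    (e5 : 32 / c0 * (12 * C * T + 36) * Real.exp 4 * l ^ 2 ≤ Real.exp (3 / 10 * l)) :
    2 * (P * ((4 * M + 36) * Real.exp (8 * (18 * U) + 4))) ≤ c0 * Real.exp l / 16 := by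
  have hc0 := c0_pos
  have h1 : 4 * M + 36 ≤ (12 * C * T + 36) * l ^ 2 := by
    have : l ≤ l ^ 2 := by nlinarith
    have : 12 * C * T * l ≤ 12 * C * T * l ^ 2 := by gcongr
    nlinarith
  have h2 : Real.exp (8 * (18 * U) + 4) ≤ Real.exp (4 / 10 * l + 4) :=
    Real.exp_le_exp.mpr (by linarith)
  calc _ ≤ 2 * (Real.exp (3 / 10 * l) *
        (((12 * C * T + 36) * l ^ 2) * Real.exp (4 / 10 * l + 4))) := by
        gcongr
    _ = c0 / 16 * (32 / c0 * (12 * C * T + 36) * Real.exp 4 * l ^ 2) *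
          Real.exp (7 / 10 * l) := by
        rw [show 7 / 10 * l = 3 / 10 * l + 4 / 10 * l by ring, Real.exp_add, Real.exp_add]
        field_simp; ring
    _ ≤ c0 / 16 * Real.exp (3 / 10 * l) * Real.exp (7 / 10 * l) := by gcongr
    _ = _ := by
        rw [mul_assoc, ← Real.exp_add, show 3 / 10 * l + 7 / 10 * l = l by ring]; ring

theorem gaps_lower {C : ℝ} (hC : 1 ≤ C) : ∃ c : ℝ, 0 < c ∧ ∀ᶠ X : ℕ in atTop, ∃ H : ℕ,
    C * Real.log (2 * X) ≤ H ∧ c * X / Real.log X ≤ (gaps H (2 * X)).card := by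
  have hc0 := c0_pos
  have hc1 := c0_le
  have hC6 := Par.C6_pos
  set K₀ := 64 / c0 with hK₀
  have hK₀0 : 0 < K₀ := by positivity
  set D := 2160 * K₀ * Par.C6 * C with hD
  have hD0 : 0 < D := by positivity
  obtain ⟨k, hk⟩ := exists_nat_ge (D + 128 * D ^ 2 / c0)
  obtain ⟨T, hT⟩ := exists_nat_ge (1 + 1024 * Real.exp (15 * (D * 2 ^ k)) / c0)
  have hT1 : (1 : ℝ) ≤ T := le_trans (le_add_of_nonneg_right (by positivity)) hT
  refine ⟨c0 / (12 * C * T), by positivity, ?_⟩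
  have hlim : Tendsto (fun X : ℕ => Real.log X) atTop atTop :=
    Real.tendsto_log_atTop.comp tendsto_natCast_atTop_atTop
  filter_upwards [eventually_gt_atTop 0, hlim.eventually (eventually_ge_atTop 160),
    hlim.eventually (eventually_ge_atTop (9600 * C * T)),
    hlim.eventually (ev_log (K := 2 ^ k * 360 * 8) (by positivity)),
    hlim.eventually (ev_exp 2 (c := 6 / 10) (by norm_num)),
    hlim.eventually (ev_exp (32 / c0 * (12 * C * T + 36) * Real.exp 4) (c := 3 / 10) (by norm_num)),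
    hlim.eventually (ev_exp (24 * C * T / c0) (c := 1) (by norm_num)),
    hlim.eventually (ev_exp (8 / c0) (c := 1 / 2) (by norm_num)),
    hlim.eventually (ev_exp 4 (c := 1 / 2) (by norm_num)),
    hlim.eventually (ev_exp 11 (c := 1) (by norm_num))] with X hX e1 e2 e3 e4 e5 e6 e7 e7' e8
  set l := Real.log X with hl
  have hX' : (0 : ℝ) < X := by exact_mod_cast hX
  have hexp : Real.exp l = X := Real.exp_log hX'
  have hl0 : 0 < l := by linarith
  set H := ⌈C * (l + 1)⌉₊ with hH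
  obtain ⟨hH1, hH2, hH3, hM2, hM3, hM4⟩ := aux_H hC e1 hT1 hH e2
  rw [← Nat.cast_mul] at hM2 hM3 hM4
  have hH0 : 0 < H := by
    have : (0 : ℝ) < H := by linarith
    exact_mod_cast this
  have hT0 : 0 < T := by
    have : (0 : ℝ) < T := by linarith
    exact_mod_cast this
  obtain ⟨π, hπM, hkI, hU1, hU2, hP⟩ := exists_par (l := l) (M := T * H) (k := k)
    (Nat.mul_pos hT0 hH0) e1 hM4 e3
  refine ⟨H, ?_, ?_⟩
  · rw [Real.log_mul (by norm_num) hX'.ne']
    have := Real.log_two_lt_d9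
    refine le_trans (mul_le_mul_of_nonneg_left (by linarith) (by linarith)) hH1
  have hU := π.U_pos
  have hs := support_lower π hexp (by linarith) (by rw [hπM]; exact hM3) hU1 hU2 hP e4 e7' e8
  have hb := π.bad_bound hkI hT0 hH0 hπM hK₀0 (D := D) (by
    calc K₀ * Par.C6 * H ≤ K₀ * Par.C6 * (3 * C * (720 * π.U)) := by
          gcongr; refine hH2.trans ?_; gcongr
      _ = _ := by rw [hD]; ring) (by
    have : 0 ≤ 128 * D ^ 2 / c0 := by positivity
    linarith) X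
  have hMX : ((T * H : ℕ) : ℝ) ≤ c0 * X / 8 := aux_M hC e1 hT1 hM2 (by rwa [one_mul, hexp] at e6)
  have hyX : (yy π.m (π.I + 1) : ℝ) ≤ c0 * X / 8 := by
    rw [← π.exp_u π.I, ← hexp]
    exact aux_y e1 hU1 e7
  have hc := count_gaps (T := T) (H := H) (X := X) (y := yy π.m (π.I + 1)) (by
    have : ((T * H : ℕ) : ℝ) ≤ X := by
      have : c0 * X ≤ 1 * X := by gcongr
      linarith
    exact_mod_cast this) ((range X).filter fun n => ∃ a ∈ Ioc 0 π.M, (n + a).Prime)
    (filter_subset _ _) (fun n hn => by rw [← hπM]; exact (mem_filter.mp hn).2)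
  have hc' : (((range X).filter fun n => ∃ a ∈ Ioc 0 π.M, (n + a).Prime).card : ℝ) ≤
      (T * H : ℕ) + yy π.m (π.I + 1) + (((range X).filter fun n => yy π.m (π.I + 1) ≤ n ∧
        ∀ i < T, ∃ a ∈ Ioc (i * H) ((i + 1) * H), (n + a).Prime).card : ℝ) +
      (gaps H (2 * X)).card * (2 * (T * H : ℕ)) := by exact_mod_cast hc
  have b1 : 4 * D ^ 2 / (k + 1) ≤ c0 / 32 := by
    rw [div_le_div_iff₀ (by positivity) (by norm_num)]
    have : 128 * D ^ 2 / c0 ≤ k + 1 := by linarith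
    rw [div_le_iff₀ hc0] at this; linarith
  have b2 : 32 * Real.exp (15 * (D * 2 ^ k)) / T ≤ c0 / 32 := by
    rw [div_le_div_iff₀ (by positivity) (by norm_num)]
    have : 1024 * Real.exp (15 * (D * 2 ^ k)) / c0 ≤ T := by linarith
    rw [div_le_iff₀ hc0] at this; linarith
  have b3 : 2 / K₀ = c0 / 32 := by rw [hK₀]; field_simp; norm_num
  have b4 : 2 * (((∏ p ∈ π.A, p : ℕ) : ℝ) ^ 2 *
      ((4 * π.M + 36) * Real.exp (8 * (18 * π.U) + 4))) ≤ c0 * X / 16 := by
    rw [← hexp]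
    exact aux_err hC e1 hT1 (Nat.cast_nonneg _) (by rw [hπM]; exact hM2) hU1 hP e5
  have b5 : (X : ℝ) * (2 * (4 * D ^ 2 / (k + 1) + 32 * Real.exp (15 * (D * 2 ^ k)) / T + 2 / K₀)) ≤
      X * (2 * (3 * (c0 / 32))) := by gcongr; linarith
  have b6 : c0 * X / 2 ≤ (gaps H (2 * X)).card * (2 * (T * H : ℕ)) := by linarith
  have b7 : ((gaps H (2 * X)).card : ℝ) * (2 * (T * H : ℕ)) ≤
      (gaps H (2 * X)).card * (2 * (3 * C * T * l)) := by gcongr
  rw [div_le_iff₀ hl0, div_mul_eq_mul_div, div_le_iff₀ (by positivity)]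
  linarith

theorem main (C : ℝ) :
    ∃ c : ℝ, 0 < c ∧ ∃ N₀ : ℕ, ∀ N : ℕ, N₀ ≤ N →
      c * (N : ℝ) ≤ (((Finset.range N).filter fun n =>
        C * Real.log ((Nat.nth Nat.Prime n : ℕ) : ℝ) <
          ((Nat.nth Nat.Prime (n + 1) : ℕ) : ℝ) - ((Nat.nth Nat.Prime n : ℕ) : ℝ)).card : ℝ) := by
  obtain ⟨c, hc, hev⟩ := gaps_lower (C := max C 1) (le_max_right _ _)
  have hinf : (Set.ofPred Nat.Prime).Infinite := Nat.infinite_setOfPred_prime
  have hA : ∀ a b, a < Nat.count Nat.Prime b ↔ Nat.nth Nat.Prime a < b :=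
    fun a b => Nat.lt_nth_iff_count_lt hinf
  have hB : ∀ a b, Nat.count Nat.Prime a ≤ b ↔ a ≤ Nat.nth Nat.Prime b :=
    fun a b => Nat.count_le_iff_le_nth hinf
  have hlim : Tendsto (fun N : ℕ => Nat.nth Nat.Prime N / 2) atTop atTop := by
    refine tendsto_atTop.mpr fun b => ?_
    filter_upwards [eventually_ge_atTop (2 * b)] with N hN
    have := Nat.le_nth (p := Nat.Prime) (n := N) (fun h => absurd h hinf)
    omega
  have hlim2 : Tendsto (fun X : ℕ => ((2 * X + 1 : ℕ) : ℝ)) atTop atTop := by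
    refine tendsto_natCast_atTop_atTop.comp (tendsto_atTop.mpr fun b => ?_)
    filter_upwards [eventually_ge_atTop b] with X hX
    omega
  have hev2 := hlim2.eventually (Chebyshev.eventually_primeCounting_le (ε := 1) one_pos)
  obtain ⟨N₀, hN₀⟩ := eventually_atTop.mp (hlim.eventually (hev.and (hev2.and
    (eventually_ge_atTop 2))))
  refine ⟨c / 9, by positivity, N₀, fun N hN => ?_⟩
  obtain ⟨⟨H, hH, h1⟩, h2, h3⟩ := hN₀ N hN
  set X := Nat.nth Nat.Prime N / 2 with hX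
  have hX' : (2 : ℝ) ≤ X := by exact_mod_cast h3
  have hlog : 0 < Real.log X := Real.log_pos (by linarith)
  have h4 : N ≤ Nat.primeCounting (2 * X + 1) := by
    have : N < Nat.count Nat.Prime (2 * X + 1 + 1) := by rw [hA]; omega
    exact this.le
  have h5 : (N : ℝ) ≤ 9 * X / Real.log X := by
    rw [Nat.floor_natCast] at h2
    have h6 : Real.log 4 ≤ 2 := by
      have : Real.log 4 = 2 * Real.log 2 := by
        rw [show (4 : ℝ) = 2 ^ 2 by norm_num, Real.log_pow]; norm_num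
      have := Real.log_two_lt_d9
      linarith
    calc (N : ℝ) ≤ Nat.primeCounting (2 * X + 1) := by exact_mod_cast h4
      _ ≤ _ := h2
      _ ≤ 9 * X / Real.log X := by
          push_cast
          have h7 : Real.log X ≤ Real.log (2 * X + 1) := Real.log_le_log (by linarith) (by linarith)
          have h8 : (Real.log 4 + 1) * (2 * X + 1) ≤ 9 * X := by nlinarith
          gcongr
  calc c / 9 * N ≤ c / 9 * (9 * X / Real.log X) := by gcongr
    _ = c * X / Real.log X := by ring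
    _ ≤ _ := h1
    _ ≤ _ := by
        refine Nat.cast_le.mpr (card_le_card fun k hk => ?_)
        simp only [gaps, mem_filter, mem_range] at hk ⊢
        have h6 : Nat.nth Nat.Prime k < 2 * X := (hA _ _).mp hk.1
        refine ⟨?_, ?_⟩
        · have : Nat.count Nat.Prime (2 * X) ≤ N := by rw [hB]; omega
          omega
        · have h7 : (Nat.nth Nat.Prime k : ℝ) + H < Nat.nth Nat.Prime (k + 1) := by
            exact_mod_cast hk.2
          have h8 : (0 : ℝ) < Nat.nth Nat.Prime k := by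
            exact_mod_cast (Nat.prime_nth_prime k).pos
          have h9 : Real.log (Nat.nth Nat.Prime k) ≤ Real.log (2 * X) :=
            Real.log_le_log h8 (by exact_mod_cast h6.le)
          have h10 : 0 ≤ Real.log (Nat.nth Nat.Prime k) := Real.log_natCast_nonneg _
          have h11 : C * Real.log (Nat.nth Nat.Prime k) ≤ max C 1 * Real.log (2 * X) :=
            mul_le_mul (le_max_left _ _) h9 h10 (le_trans zero_le_one (le_max_right _ _))
          linarith

end Crest.Agent.PrimeGap
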